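import Vale.Agent.P193.Alg.Defs

/-!
# The defining relations in the algebra
-/

namespace Vale.Agent.P193.Setup

variable (D : Setup)

/-- `x` of a letter or of the tag. -/
noncomputable def ox (l : Option D.Letter) : D.Alg := D.quot (FreeAlgebra.ι _ (.x l))

/-- `y` of a letter or of the tag. -/
noncomputable def oy (l : Option D.Letter) : D.Alg := D.quot (FreeAlgebra.ι _ (.y l))

/-- The value of an atom in the algebra. -/
noncomputable def atom (t : Atom D.k) : D.Alg := D.quot (D.fatom t)

/-- The final residual of an operator in the algebra. -/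
noncomputable def final (q : D.Op) : D.Alg := D.quot (D.ffinal q)

/-- What an operator writes on a tag, in the algebra. -/
noncomputable def write (q : D.Op) (σ : Colour) : D.Alg := D.quot (D.fwrite q σ)

variable {D}

theorem ox_some (a : D.Letter) : D.ox (some a) = D.x a := rfl

theorem ox_none : D.ox none = D.xT := rfl

theorem oy_some (a : D.Letter) : D.oy (some a) = D.y a := rfl

theorem oy_none : D.oy none = D.yT := rfl

theorem rel {a b : D.Free} (h : D.Rel a b) : D.quot a = D.quot b :=
  RingQuot.mkAlgHom_rel (ZMod 2) h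

theorem oy_mul_ox (l m : Option D.Letter) : D.oy l * D.ox m = if l = m then 1 else 0 := by
  have h := rel (Rel.orth l m)
  rw [map_mul] at h
  refine h.trans ?_
  split_ifs <;> simp

theorem y_mul_x (a b : D.Letter) : D.y a * D.x b = if a = b then 1 else 0 := by
  rw [← oy_some, ← ox_some, oy_mul_ox]
  simp

theorem y_mul_x_self (a : D.Letter) : D.y a * D.x a = 1 := by simp [y_mul_x]

theorem y_mul_x_ne {a b : D.Letter} (h : a ≠ b) : D.y a * D.x b = 0 := by simp [y_mul_x, h]

theorem yT_mul_xT : D.yT * D.xT = 1 := by simpa [ox_none, oy_none] using oy_mul_ox (D := D) none none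

theorem y_mul_xT (a : D.Letter) : D.y a * D.xT = 0 := by
  simpa [ox_none, oy_some] using oy_mul_ox (D := D) (some a) none

theorem yT_mul_x (a : D.Letter) : D.yT * D.x a = 0 := by
  simpa [oy_none, ox_some] using oy_mul_ox (D := D) none (some a)

theorem gg_mul_x (i : Fin D.k) (a : D.Letter) : D.gg i * D.x a = D.x a * D.gg i := by
  simpa only [map_mul, gg, x] using rel (Rel.gx i a)

theorem y_mul_gg (i : Fin D.k) (a : D.Letter) : D.y a * D.gg i = D.gg i * D.y a := by
  simpa only [map_mul, gg, y] using rel (Rel.gy i a)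

theorem op_mul_x (q : D.Op) (a : D.Letter) : D.op q * D.x a = D.quot (D.fcolumn q a) := by
  rw [← rel (Rel.column q a), map_mul]
  rfl

theorem quot_ops (l : List D.Op) : D.quot (l.map D.fop).prod = (l.map D.op).prod := by
  rw [map_list_prod, List.map_map]
  rfl

theorem op_mul_conf_none {q : D.Op} {c : D.M.C} (h : D.confRule q c = none) :
    D.op q * D.x (.conf c) = 0 := by
  rw [op_mul_x]
  simp only [fcolumn, h, map_zero]

theorem op_mul_conf {q : D.Op} {c : D.M.C} {r : (D.M.C × List D.M.C) × D.Op}
    (h : D.confRule q c = some r) :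
    D.op q * D.x (.conf c) =
      ((r.1.1 :: r.1.2).map fun d => D.x (.conf d)).prod * D.op r.2 := by
  rw [op_mul_x]
  simp only [fcolumn, h, map_mul, map_list_prod, List.map_map]
  rfl

theorem op_mul_pad (q : D.Op) : D.op q * D.x .pad = D.x .pad * D.op q := by
  rw [op_mul_x]
  simp only [fcolumn, map_mul]
  rfl

theorem op_mul_load (q : D.Op) (t : Atom D.k) :
    D.op q * D.x (.load t) = D.x (.load t) * ((D.loadRule t q).map D.op).prod := by
  rw [op_mul_x]
  simp only [fcolumn, map_mul, quot_ops]
  rfl

theorem op_mul_fuel (q : D.Op) :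
    D.op q * D.x .fuel = D.x .fuel * ((D.fuelRule q).map D.op).prod := by
  rw [op_mul_x]
  simp only [fcolumn, map_mul, quot_ops]
  rfl

theorem op_mul_z (q : D.Op) : D.op q * D.x .z = D.x .z * D.final q := by
  rw [op_mul_x]
  simp only [fcolumn, map_mul]
  rfl

theorem seed_mul_go :
    D.op .seed * D.x .go = D.x (.conf D.M.lb) * D.x (.conf D.M.rb) * D.x .z := by
  rw [op_mul_x]
  simp only [fcolumn, if_true, map_mul]
  rfl

theorem op_mul_go {q : D.Op} (h : q ≠ .seed) : D.op q * D.x .go = 0 := by
  rw [op_mul_x]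
  simp only [fcolumn, if_neg h, map_zero]

theorem op_mul_colour (q : D.Op) (σ : Colour) :
    D.op q * D.x (.colour σ) = D.write q .plain * D.x (.colour σ) * (D.p - D.xT * D.yT) +
      D.write q σ * D.x (.colour σ) * (D.xT * D.yT) := by
  rw [op_mul_x]
  simp only [fcolumn, map_add, map_mul, map_sub]
  rfl

theorem op_mul_tok (q r : D.Op) : D.op q * D.x (.tok r) = 0 := by
  rw [op_mul_x]; simp [fcolumn]

theorem op_mul_b0 (q : D.Op) : D.op q * D.x .b0 = 0 := by
  rw [op_mul_x]; simp [fcolumn]

theorem op_mul_b1 (q : D.Op) : D.op q * D.x .b1 = 0 := by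
  rw [op_mul_x]; simp [fcolumn]

theorem op_mul_p (q : D.Op) : D.op q * D.p = D.write q .plain * D.p := by
  simpa only [map_mul, op, p, write] using rel (Rel.tag q)

theorem head_mul_seed : D.op D.head * D.op .seed = 0 := by
  simpa only [map_mul, map_zero, op] using rel (Rel.compress (D := D))

theorem write_none {q : D.Op} {σ : Colour} (h : D.colourRule q σ = none) : D.write q σ = 0 := by
  simp [write, fwrite, h]

theorem write_some {q : D.Op} {σ τ : Colour} (h : D.colourRule q σ = some τ) :
    D.write q σ = D.x (.colour τ) * D.xT * D.x (.tok q) := by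
  simp only [write, fwrite, h, map_mul]
  rfl

theorem p_eq : D.p = 1 - ∑ a, D.x a * D.y a := by
  simp only [p, fp, map_sub, map_one, map_sum, map_mul]
  rfl

theorem one_eq : (1 : D.Alg) = (∑ a, D.x a * D.y a) + D.p := by
  rw [p_eq, add_sub_cancel]

theorem p_mul_x (a : D.Letter) : D.p * D.x a = 0 := by
  rw [p_eq, sub_mul, one_mul, Finset.sum_mul, Finset.sum_eq_single a]
  · rw [mul_assoc, y_mul_x_self, mul_one, sub_self]
  · intro b _ hb
    rw [mul_assoc, y_mul_x_ne hb, mul_zero]
  · simp

theorem y_mul_p (a : D.Letter) : D.y a * D.p = 0 := by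
  rw [p_eq, mul_sub, mul_one, Finset.mul_sum, Finset.sum_eq_single a]
  · rw [← mul_assoc, y_mul_x_self, one_mul, sub_self]
  · intro b _ hb
    rw [← mul_assoc, y_mul_x_ne hb.symm, zero_mul]
  · simp

theorem p_mul_xT : D.p * D.xT = D.xT := by
  simp [p_eq, sub_mul, Finset.sum_mul, mul_assoc, y_mul_xT]

theorem yT_mul_p : D.yT * D.p = D.yT := by
  simp [p_eq, mul_sub, Finset.mul_sum, ← mul_assoc, yT_mul_x]

theorem gg_mul_p (i : Fin D.k) : D.gg i * D.p = D.p * D.gg i := by
  simp only [p_eq, mul_sub, sub_mul, mul_one, one_mul, Finset.mul_sum, Finset.sum_mul]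
  congr 1
  refine Finset.sum_congr rfl fun a _ => ?_
  rw [← mul_assoc, gg_mul_x, mul_assoc, ← y_mul_gg, ← mul_assoc]

theorem atom_gen (i : Fin D.k) :
    D.atom (.gen i) = D.x .b0 * D.y .b0 + D.x .b1 * D.gg i * D.y .b1 := by
  simp only [atom, fatom, map_add, map_mul]
  rfl

theorem atom_row : D.atom .row = D.y .b0 + D.y .b1 := by
  simp only [atom, fatom, map_add]
  rfl

theorem atom_col : D.atom .col = D.x .b1 - D.x .b0 := by
  simp only [atom, fatom, map_sub]
  rfl

theorem atom_yT : D.atom .yT = D.yT * D.y .b1 := by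
  simp only [atom, fatom, map_mul]
  rfl

theorem atom_xT : D.atom .xT = D.x .b1 * D.xT := by
  simp only [atom, fatom, map_mul]
  rfl

theorem final_seed : D.final .seed = 0 := by simp [final, ffinal]

theorem final_code (t : Atom D.k) : D.final (.code t) = 0 := by simp [final, ffinal]

theorem final_copy (t : Atom D.k) : D.final (.copy t) = D.atom t := rfl

theorem final_step (s : D.M.step.State) :
    D.final (.step s) = if D.M.step.final s then 1 else 0 := by
  simp only [final, ffinal]; split_ifs <;> simp

theorem final_acc (s : D.M.acc.State) :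
    D.final (.acc s) = if D.M.acc.final s then 1 else 0 := by
  simp only [final, ffinal]; split_ifs <;> simp

end Vale.Agent.P193.Setup
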