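import Vale.Agent.P193.Alg.Words

/-!
# The compressing relation and the relations it implies

`head * step ^ n * codes * seed = 0` follows from `head * seed = 0`; evaluated at the letter `go` it makes the
product of the atoms of every accepted input vanish. This yields the relations of `K` and the
orthogonality of the tag letters `k * x_T`.
-/

namespace Vale.Agent.P193.Setup

variable {D : Setup}

/-- The operators `code t` of a list of atoms. -/
noncomputable def codes (t : List (Atom D.k)) : D.Alg := (t.map fun a => D.op (.code a)).prod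

theorem op_commute_load (t : Atom D.k) {q : D.Op} (h : q ≠ .seed) :
    Commute (D.op q) (D.x (.load t)) := by
  simp [Commute, SemiconjBy, op_mul_load, loadRule, h]

theorem op_commute_fuel {q : D.Op} (h : q ≠ D.head) : Commute (D.op q) (D.x .fuel) := by
  simp [Commute, SemiconjBy, op_mul_fuel, fuelRule, h]

theorem codes_commute_load (t : Atom D.k) (l : List (Atom D.k)) :
    Commute (codes l) (D.x (.load t)) := by
  refine Commute.list_prod_left _ _ fun z hz => ?_
  obtain ⟨a, -, rfl⟩ := List.mem_map.1 hz
  exact op_commute_load t (by simp)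

theorem codes_commute_fuel (l : List (Atom D.k)) : Commute (codes l) (D.x .fuel) := by
  refine Commute.list_prod_left _ _ fun z hz => ?_
  obtain ⟨a, -, rfl⟩ := List.mem_map.1 hz
  exact op_commute_fuel (by simp)

theorem seed_mul_load (t : Atom D.k) :
    D.op .seed * D.x (.load t) = D.x (.load t) * (D.op (.code t) * D.op .seed) := by
  simp [op_mul_load, loadRule]

theorem head_mul_fuel :
    D.op D.head * D.x .fuel = D.x .fuel * (D.op D.head * D.op D.stepOp) := by
  simp [op_mul_fuel, fuelRule]

theorem head_codes_seed (t : List (Atom D.k)) : D.op D.head * codes t * D.op .seed = 0 := by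
  induction t using List.reverseRecOn with
  | nil => simp [codes, head_mul_seed]
  | append_singleton t a ih =>
    have h := congrArg (fun z => D.y (.load a) * z * D.x (.load a)) ih
    simp only [mul_zero, zero_mul, mul_assoc, seed_mul_load] at h
    rw [← mul_assoc (codes t) (D.x (.load a)), (codes_commute_load a t).eq, mul_assoc,
      ← mul_assoc (D.op D.head) (D.x (.load a)), (op_commute_load a (q := D.head) (by simp)).eq,
      mul_assoc, ← mul_assoc (D.y (.load a)), y_mul_x_self, one_mul] at h
    simpa [codes, mul_assoc] using h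

theorem head_steps_codes_seed (n : ℕ) (t : List (Atom D.k)) :
    D.op D.head * D.op D.stepOp ^ n * codes t * D.op .seed = 0 := by
  induction n with
  | zero => simpa using head_codes_seed t
  | succ n ih =>
    have hs : Commute (D.op D.stepOp) (D.x .fuel) := op_commute_fuel (by simp)
    have hseed : Commute (D.op .seed) (D.x .fuel) := op_commute_fuel (by simp)
    have h := congrArg (fun z => D.y .fuel * z * D.x .fuel) ih
    simp only [mul_zero, zero_mul, mul_assoc] at h
    rw [hseed.eq, ← mul_assoc (codes t) (D.x .fuel), (codes_commute_fuel t).eq, mul_assoc,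
      ← mul_assoc (D.op D.stepOp ^ n) (D.x .fuel), (hs.pow_left n).eq, mul_assoc,
      ← mul_assoc (D.op D.head) (D.x .fuel), head_mul_fuel, mul_assoc,
      ← mul_assoc (D.y .fuel), y_mul_x_self, one_mul] at h
    simpa [pow_succ', mul_assoc] using h

/-- A configuration word. -/
noncomputable def xs (l : List D.M.C) : D.Alg := (l.map fun d => D.x (.conf d)).prod

/-- A configuration word followed by `z`. -/
noncomputable def confz (l : List D.M.C) : D.Alg := xs l * D.x .z

theorem xs_cons (c : D.M.C) (l : List D.M.C) : xs (c :: l) = D.x (.conf c) * xs l :=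
  List.prod_cons

theorem xs_append (l l' : List D.M.C) : xs (l ++ l') = xs l * xs l' := by
  simp [xs]

theorem xs_left_inv (l : List D.M.C) : ∃ y, y * xs l = 1 := by
  induction l with
  | nil => exact ⟨1, by simp [xs]⟩
  | cons c l ih =>
    obtain ⟨y, hy⟩ := ih
    exact ⟨y * D.y (.conf c), by
      rw [xs_cons, mul_assoc, ← mul_assoc (D.y _), y_mul_x_self, one_mul, hy]⟩

theorem confz_left_inv (l : List D.M.C) : ∃ y, y * confz l = 1 := by
  obtain ⟨y, hy⟩ := xs_left_inv l
  exact ⟨D.y .z * y, by
    rw [confz, mul_assoc, ← mul_assoc y, hy, one_mul, y_mul_x_self]⟩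

/-- An operator family behaving as a transducer. -/
theorem run_xs (T : Transducer D.M.C) (emb : T.State → D.Op)
    (hrule : ∀ s c, D.confRule (emb s) c = (T.rule s c).map fun r => (r.1, emb r.2))
    (s : T.State) (l : List D.M.C) :
    D.op (emb s) * xs l = ((T.runFrom s l).map fun o => xs o.1 * D.op (emb o.2)).getD 0 := by
  induction l generalizing s with
  | nil => simp [Transducer.runFrom, xs]
  | cons c l ih =>
    rw [xs_cons, ← mul_assoc]
    cases hc : T.rule s c with
    | none => simp [op_mul_conf_none (q := emb s) (c := c) (by simp [hrule, hc]),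
        Transducer.runFrom, hc]
    | some r =>
      rw [op_mul_conf (q := emb s) (c := c) (r := (r.1, emb r.2)) (by simp [hrule, hc]),
        mul_assoc, ih]
      cases ho : T.runFrom r.2 l with
      | none => simp [Transducer.runFrom, hc, ho]
      | some o => simp [Transducer.runFrom, hc, ho, xs, mul_assoc]

theorem eval_confz (T : Transducer D.M.C) (emb : T.State → D.Op)
    (hrule : ∀ s c, D.confRule (emb s) c = (T.rule s c).map fun r => (r.1, emb r.2))
    (hfinal : ∀ s, D.final (emb s) = if T.final s then 1 else 0) {l o : List D.M.C}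
    (h : T.eval l = some o) :
    D.op (emb T.init) * confz l = confz o := by
  rw [Transducer.eval, Option.bind_eq_some_iff] at h
  obtain ⟨⟨o', s⟩, hrun, hfin⟩ := h
  rw [confz, ← mul_assoc, run_xs T emb hrule, hrun]
  simp only [Option.map_some, Option.getD_some]
  rw [mul_assoc, op_mul_z, hfinal]
  split_ifs at hfin ⊢ with hs
  · cases hfin
    simp [confz]

theorem step_confz {l o : List D.M.C} (h : D.M.step.eval l = some o) :
    D.op D.stepOp * confz l = confz o :=
  eval_confz D.M.step Op.step (fun _ _ => rfl) final_step h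

theorem acc_confz {l o : List D.M.C} (h : D.M.acc.eval l = some o) :
    D.op D.head * confz l = confz o :=
  eval_confz D.M.acc Op.acc (fun _ _ => rfl) final_acc h

theorem steps_confz {n : ℕ} {l o : List D.M.C} (h : D.M.step.iter n l = some o) :
    D.op D.stepOp ^ n * confz l = confz o := by
  induction n generalizing o with
  | zero => simp_all [Transducer.iter]
  | succ n ih =>
    rw [Transducer.iter, Option.bind_eq_some_iff] at h
    obtain ⟨m, hm, hmo⟩ := h
    rw [pow_succ', mul_assoc, ih hm, step_confz hmo]

theorem copy_xs (t : Atom D.k) (l : List D.M.C) :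
    D.op (.copy t) * xs l = xs l * D.op (.copy t) := by
  induction l with
  | nil => simp [xs]
  | cons c l ih =>
    rw [xs_cons, ← mul_assoc, op_mul_conf (q := .copy t) (c := c) (r := ((c, []), .copy t)) rfl]
    simp [mul_assoc, ih]

theorem code_confz (t : Atom D.k) (l : List D.M.C) :
    D.op (.code t) * confz (D.M.lb :: l) = confz (D.M.lb :: D.M.sym t :: l) * D.atom t := by
  rw [confz, confz, xs_cons, xs_cons, xs_cons, ← mul_assoc, ← mul_assoc,
    op_mul_conf (q := .code t) (c := D.M.lb) (r := ((D.M.lb, [D.M.sym t]), .copy t))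
      (by simp [confRule])]
  simp only [List.map_cons, List.map_nil, List.prod_cons, List.prod_nil, mul_one, mul_assoc]
  rw [← mul_assoc (D.op (.copy t)), copy_xs, mul_assoc, op_mul_z, final_copy]

theorem codes_confz (t : List (Atom D.k)) :
    codes t * confz [D.M.lb, D.M.rb] = confz (D.M.start t) * (t.map D.atom).prod := by
  induction t with
  | nil => simp [codes, Machine.start]
  | cons a t ih =>
    have hc : codes (a :: t) = D.op (.code a) * codes t := List.prod_cons
    rw [hc, mul_assoc, ih, ← mul_assoc]
    simp only [Machine.start, List.cons_append, List.map_cons, List.prod_cons]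
    rw [code_confz, mul_assoc]

theorem seed_mul_go' : D.op .seed * D.x .go = confz [D.M.lb, D.M.rb] := by
  simp [seed_mul_go, confz, xs, mul_assoc]

/-- The atoms of an accepted input multiply to zero. -/
theorem accepts_atom_prod {t : List (Atom D.k)} (h : D.M.Accepts t) :
    (t.map D.atom).prod = 0 := by
  obtain ⟨n, hn⟩ := h
  obtain ⟨o, ho⟩ := Option.isSome_iff_exists.1 hn
  obtain ⟨m, hm, hmo⟩ := Option.bind_eq_some_iff.1 ho
  have h0 : confz o * (t.map D.atom).prod = 0 := by
    rw [← acc_confz hmo, ← steps_confz hm]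
    simp only [mul_assoc]
    rw [← codes_confz, ← seed_mul_go']
    simp only [← mul_assoc]
    rw [head_steps_codes_seed, zero_mul]
  obtain ⟨y, hy⟩ := confz_left_inv o
  calc (t.map D.atom).prod = y * (confz o * (t.map D.atom).prod) := by
        rw [← mul_assoc, hy, one_mul]
    _ = 0 := by rw [h0, mul_zero]

/-- The value of a word in the generators. -/
noncomputable def gprod (w : List (Fin D.k)) : D.Alg := (w.map D.gg).prod

theorem gprod_append (w w' : List (Fin D.k)) : gprod (w ++ w') = gprod w * gprod w' := by
  simp [gprod]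

theorem atom_gen_mul_b0 (i : Fin D.k) : D.atom (.gen i) * D.x .b0 = D.x .b0 := by
  rw [atom_gen, add_mul, mul_assoc (D.x .b0), y_mul_x_self, mul_one, mul_assoc (D.x .b1 * D.gg i),
    y_mul_x_ne (by simp), mul_zero, add_zero]

theorem atom_gen_mul_b1 (i : Fin D.k) :
    D.atom (.gen i) * D.x .b1 = D.x .b1 * D.gg i := by
  rw [atom_gen, add_mul, mul_assoc (D.x .b0), y_mul_x_ne (by simp), mul_zero, zero_add,
    mul_assoc (D.x .b1 * D.gg i), y_mul_x_self, mul_one]

theorem gens_mul_b0 (w : List (Fin D.k)) :
    ((w.map Atom.gen).map D.atom).prod * D.x .b0 = D.x .b0 := by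
  induction w with
  | nil => simp
  | cons i w ih => simp only [List.map_cons, List.prod_cons]; rw [mul_assoc, ih, atom_gen_mul_b0]

theorem gens_mul_b1 (w : List (Fin D.k)) :
    ((w.map Atom.gen).map D.atom).prod * D.x .b1 = D.x .b1 * gprod w := by
  induction w with
  | nil => simp [gprod]
  | cons i w ih =>
    simp only [gprod, List.map_cons, List.prod_cons] at ih ⊢
    rw [mul_assoc, ih, ← mul_assoc, atom_gen_mul_b1, mul_assoc]

theorem row_mul_b0 : (D.y .b0 + D.y .b1) * D.x .b0 = 1 := by
  rw [add_mul, y_mul_x_self, y_mul_x_ne (by simp), add_zero]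

theorem row_mul_b1 : (D.y .b0 + D.y .b1) * D.x .b1 = 1 := by
  rw [add_mul, y_mul_x_self, y_mul_x_ne (by simp), zero_add]

/-- The relations of `K` hold. -/
theorem gprod_eq_one {w : List (Fin D.k)} (hw : (w.map D.g).prod = 1) : gprod w = 1 := by
  have h := accepts_atom_prod ((D.spec _).2 (Or.inl ⟨w, rfl, hw⟩))
  simp only [List.map_cons, List.map_append, List.map_nil, List.prod_cons, List.prod_append,
    List.prod_nil, mul_one, atom_row, atom_col, mul_sub, gens_mul_b0, gens_mul_b1] at h
  rw [← mul_assoc, row_mul_b0, row_mul_b1, one_mul, sub_eq_zero] at h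
  exact h

/-- Different tags are orthogonal. -/
theorem yT_gprod_xT {w : List (Fin D.k)} (hw : (w.map D.g).prod ≠ 1) :
    D.yT * gprod w * D.xT = 0 := by
  have h := accepts_atom_prod ((D.spec _).2 (Or.inr ⟨w, rfl, hw⟩))
  simp only [List.map_cons, List.map_append, List.map_nil, List.prod_cons, List.prod_append,
    List.prod_nil, mul_one, atom_yT, atom_xT] at h
  rw [mul_assoc D.yT (D.y .b1), ← mul_assoc _ (D.x .b1), gens_mul_b1, ← mul_assoc (D.y .b1),
    ← mul_assoc (D.y .b1), y_mul_x_self, one_mul, ← mul_assoc] at h
  exact h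

theorem exists_word (a : D.K) : ∃ w : List (Fin D.k), (w.map D.g).prod = a := by
  have ha : a ∈ Submonoid.closure (Set.range D.g) := D.closure_range ▸ Submonoid.mem_top a
  induction ha using Submonoid.closure_induction with
  | mem x hx => obtain ⟨i, rfl⟩ := hx; exact ⟨[i], by simp⟩
  | one => exact ⟨[], rfl⟩
  | mul x y _ _ hx hy =>
    obtain ⟨u, rfl⟩ := hx
    obtain ⟨v, rfl⟩ := hy
    exact ⟨u ++ v, by simp⟩

theorem gprod_congr {w w' : List (Fin D.k)} (h : (w.map D.g).prod = (w'.map D.g).prod) :
    gprod w = gprod w' := by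
  obtain ⟨v, hv⟩ := exists_word ((w.map D.g).prod)⁻¹
  have h1 : gprod w * gprod v = 1 := by
    rw [← gprod_append]; exact gprod_eq_one (by simp [hv])
  have h2 : gprod v * gprod w' = 1 := by
    rw [← gprod_append]; exact gprod_eq_one (by simp [hv, h])
  exact left_inv_eq_right_inv h1 h2

/-- An element of `K` in the algebra. -/
noncomputable def kAlg : D.K →* D.Alg where
  toFun a := gprod (exists_word a).choose
  map_one' := gprod_eq_one (exists_word (1 : D.K)).choose_spec
  map_mul' a b := by
    rw [← gprod_append]
    refine gprod_congr ?_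
    simp [(exists_word (a * b)).choose_spec, (exists_word a).choose_spec,
      (exists_word b).choose_spec]

theorem kAlg_prod (w : List (Fin D.k)) : kAlg (w.map D.g).prod = gprod w :=
  gprod_congr (exists_word _).choose_spec

/-- `K` in the units of the algebra. -/
noncomputable def kHom : D.K →* D.Algˣ := kAlg.toHomUnits

theorem coe_kHom (a : D.K) : ((kHom a : D.Algˣ) : D.Alg) = kAlg a := rfl

theorem kHom_g (i : Fin D.k) : ((kHom (D.g i) : D.Algˣ) : D.Alg) = D.gg i := by
  simpa [coe_kHom, gprod] using kAlg_prod [i]

theorem yT_kHom_xT [DecidableEq D.K] (a : D.K) :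
    D.yT * (kHom a : D.Algˣ) * D.xT = if a = 1 then 1 else 0 := by
  split_ifs with ha
  · simp [ha, yT_mul_xT]
  · obtain ⟨w, rfl⟩ := exists_word a
    rw [coe_kHom, kAlg_prod]
    exact yT_gprod_xT ha

theorem kHom_commute_x (a : D.K) (l : D.Letter) :
    Commute ((kHom a : D.Algˣ) : D.Alg) (D.x l) := by
  obtain ⟨w, rfl⟩ := exists_word a
  rw [coe_kHom, kAlg_prod]
  refine Commute.list_prod_left _ _ fun z hz => ?_
  obtain ⟨i, -, rfl⟩ := List.mem_map.1 hz
  exact gg_mul_x i l

theorem kHom_commute_y (a : D.K) (l : D.Letter) :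
    Commute ((kHom a : D.Algˣ) : D.Alg) (D.y l) := by
  obtain ⟨w, rfl⟩ := exists_word a
  rw [coe_kHom, kAlg_prod]
  refine Commute.list_prod_left _ _ fun z hz => ?_
  obtain ⟨i, -, rfl⟩ := List.mem_map.1 hz
  exact (y_mul_gg i l).symm

theorem kHom_commute_p (a : D.K) : Commute ((kHom a : D.Algˣ) : D.Alg) D.p := by
  obtain ⟨w, rfl⟩ := exists_word a
  rw [coe_kHom, kAlg_prod]
  refine Commute.list_prod_left _ _ fun z hz => ?_
  obtain ⟨i, -, rfl⟩ := List.mem_map.1 hz
  exact gg_mul_p i

/-- The consequences of the compressing relation. -/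
noncomputable def derived (D : Setup) : D.Derived where
  kk := kAlg
  kk_g i := by simpa [gprod] using kAlg_prod [i]
  kk_orth k := by
    classical
    rw [← coe_kHom, yT_kHom_xT]
  pattern n ts := head_steps_codes_seed n ts

theorem kHom_injective [Nontrivial D.Alg] : Function.Injective (kHom (D := D)) := by
  classical
  refine (injective_iff_map_eq_one kHom).2 fun a ha => by_contra fun hne => ?_
  have h := yT_kHom_xT a
  rw [if_neg hne, ha, Units.val_one, mul_one, yT_mul_xT] at h
  exact one_ne_zero h

end Vale.Agent.P193.Setup
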