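import Vale.Agent.P193.Machine

/-!
# The finitely presented algebra attached to a group with solvable word problem

Letters are `some a` (`a` in the finite alphabet `Letter`) and `none` (the tag letter `T`).
-/

namespace Vale.Agent.P193

/-- The atoms which can be multiplied out by an accepted run. -/
inductive Atom (k : ℕ)
  | gen (i : Fin k)
  | row
  | col
  | yT
  | xT
  deriving DecidableEq, Fintype

/-- Codes of the true relations of a group with generators `g`. -/
def ValidCode {K : Type} [Group K] {k : ℕ} (g : Fin k → K) (t : List (Atom k)) : Prop :=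
  (∃ w : List (Fin k), t = .row :: (w.map .gen ++ [.col]) ∧ (w.map g).prod = 1) ∨
    ∃ w : List (Fin k), t = .yT :: (w.map .gen ++ [.xT]) ∧ (w.map g).prod ≠ 1

/-- Colours carried by the tag of a block of operators. -/
inductive Colour
  | plain
  | codes
  | steps
  deriving DecidableEq

instance : Fintype Colour :=
  ⟨{.plain, .codes, .steps}, fun x => by cases x <;> simp⟩

/-- An infinite group with monoid generators and a machine for its word problem. -/
structure Setup where
  K : Type
  [group : Group K]
  [infinite : Infinite K]
  k : ℕ
  g : Fin k → K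
  closure_range : Submonoid.closure (Set.range g) = ⊤
  M : Machine (Atom k)
  spec : M.Recognizes (ValidCode g)

attribute [instance] Setup.group Setup.infinite

namespace Setup

variable (D : Setup)

/-- The operators. -/
inductive Op
  | seed
  | code (t : Atom D.k)
  | copy (t : Atom D.k)
  | step (s : D.M.step.State)
  | acc (s : D.M.acc.State)
  deriving DecidableEq, Fintype

/-- The finite alphabet. -/
inductive Letter
  | conf (c : D.M.C)
  | z
  | go
  | pad
  | load (t : Atom D.k)
  | fuel
  | colour (σ : Colour)
  | tok (q : D.Op)
  | b0
  | b1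
  deriving DecidableEq, Fintype

/-- Generators of the algebra. -/
inductive Gen
  | x (l : Option D.Letter)
  | y (l : Option D.Letter)
  | g (i : Fin D.k)
  | op (q : D.Op)
  deriving DecidableEq, Fintype

/-- The operator that starts the verification. -/
abbrev head : D.Op := .acc D.M.acc.init

/-- The step operator. -/
abbrev stepOp : D.Op := .step D.M.step.init

/-- Action of an operator on a configuration letter. -/
def confRule : D.Op → D.M.C → Option ((D.M.C × List D.M.C) × D.Op)
  | .seed, _ => none
  | .code t, c => if c = D.M.lb then some ((c, [D.M.sym t]), .copy t) else none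
  | .copy t, c => some ((c, []), .copy t)
  | .step s, c => (D.M.step.rule s c).map fun r => (r.1, .step r.2)
  | .acc s, c => (D.M.acc.rule s c).map fun r => (r.1, .acc r.2)

/-- The operators left behind by a `load` letter. -/
def loadRule (t : Atom D.k) (q : D.Op) : List D.Op :=
  if q = .seed then [.code t, .seed] else [q]

/-- The operators left behind by a `fuel` letter. -/
def fuelRule (q : D.Op) : List D.Op := if q = D.head then [q, D.stepOp] else [q]

/-- The colour written by an operator on reading a colour; `none` means annihilation. -/
def colourRule (q : D.Op) (σ : Colour) : Option Colour :=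
  if q = .seed then some .codes
  else if q = D.head ∧ σ ≠ .plain then none
  else match q with
    | .code _ => if σ = .codes then some .codes else some .plain
    | _ => if q = D.stepOp ∧ σ ≠ .plain then some .steps else some .plain

/-- The free algebra on the generators. -/
abbrev Free := FreeAlgebra (ZMod 2) D.Gen

/-- `x` of a letter in the free algebra. -/
def fx (a : D.Letter) : D.Free := FreeAlgebra.ι _ (.x (some a))

/-- `y` of a letter in the free algebra. -/
def fy (a : D.Letter) : D.Free := FreeAlgebra.ι _ (.y (some a))

/-- `x_T`. -/
def fxT : D.Free := FreeAlgebra.ι _ (.x none)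

/-- `y_T`. -/
def fyT : D.Free := FreeAlgebra.ι _ (.y none)

/-- A group generator. -/
def fg (i : Fin D.k) : D.Free := FreeAlgebra.ι _ (.g i)

/-- An operator. -/
def fop (q : D.Op) : D.Free := FreeAlgebra.ι _ (.op q)

/-- The part of the unit outside the finite alphabet. -/
noncomputable def fp : D.Free := 1 - ∑ a, D.fx a * D.fy a

/-- The value of an atom. -/
def fatom : Atom D.k → D.Free
  | .gen i => D.fx .b0 * D.fy .b0 + D.fx .b1 * D.fg i * D.fy .b1
  | .row => D.fy .b0 + D.fy .b1
  | .col => D.fx .b1 - D.fx .b0
  | .yT => D.fyT * D.fy .b1
  | .xT => D.fx .b1 * D.fxT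

/-- The residual left by an operator at the end of a configuration. -/
def ffinal : D.Op → D.Free
  | .seed => 0
  | .code _ => 0
  | .copy t => D.fatom t
  | .step s => if D.M.step.final s then 1 else 0
  | .acc s => if D.M.acc.final s then 1 else 0

/-- What an operator writes on a tag of the given colour. -/
def fwrite (q : D.Op) (σ : Colour) : D.Free :=
  match D.colourRule q σ with
  | none => 0
  | some τ => D.fx (.colour τ) * D.fxT * D.fx (.tok q)

/-- The column of an operator at a letter. -/
noncomputable def fcolumn (q : D.Op) : D.Letter → D.Free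
  | .conf c =>
    match D.confRule q c with
    | none => 0
    | some r => ((r.1.1 :: r.1.2).map fun d => D.fx (.conf d)).prod * D.fop r.2
  | .z => D.fx .z * D.ffinal q
  | .go => if q = .seed then D.fx (.conf D.M.lb) * D.fx (.conf D.M.rb) * D.fx .z else 0
  | .pad => D.fx .pad * D.fop q
  | .load t => D.fx (.load t) * ((D.loadRule t q).map D.fop).prod
  | .fuel => D.fx .fuel * ((D.fuelRule q).map D.fop).prod
  | .colour σ => D.fwrite q .plain * D.fx (.colour σ) * (D.fp - D.fxT * D.fyT) +
      D.fwrite q σ * D.fx (.colour σ) * (D.fxT * D.fyT)
  | .tok _ => 0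
  | .b0 => 0
  | .b1 => 0

/-- The defining relations. -/
inductive Rel : D.Free → D.Free → Prop
  | orth (l m : Option D.Letter) :
      Rel (FreeAlgebra.ι _ (.y l) * FreeAlgebra.ι _ (.x m)) (if l = m then 1 else 0)
  | gx (i : Fin D.k) (a : D.Letter) : Rel (D.fg i * D.fx a) (D.fx a * D.fg i)
  | gy (i : Fin D.k) (a : D.Letter) : Rel (D.fy a * D.fg i) (D.fg i * D.fy a)
  | column (q : D.Op) (a : D.Letter) : Rel (D.fop q * D.fx a) (D.fcolumn q a)
  | tag (q : D.Op) : Rel (D.fop q * D.fp) (D.fwrite q .plain * D.fp)
  | compress : Rel (D.fop D.head * D.fop .seed) 0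

/-- The algebra. -/
abbrev Alg := RingQuot D.Rel

/-- The quotient map. -/
noncomputable abbrev quot : D.Free →ₐ[ZMod 2] D.Alg := RingQuot.mkAlgHom (ZMod 2) D.Rel

/-- `x` of a letter. -/
noncomputable def x (a : D.Letter) : D.Alg := D.quot (D.fx a)

/-- `y` of a letter. -/
noncomputable def y (a : D.Letter) : D.Alg := D.quot (D.fy a)

/-- `x_T`. -/
noncomputable def xT : D.Alg := D.quot D.fxT

/-- `y_T`. -/
noncomputable def yT : D.Alg := D.quot D.fyT

/-- A group generator. -/
noncomputable def gg (i : Fin D.k) : D.Alg := D.quot (D.fg i)

/-- An operator. -/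
noncomputable def op (q : D.Op) : D.Alg := D.quot (D.fop q)

/-- The part of the unit outside the finite alphabet. -/
noncomputable def p : D.Alg := D.quot D.fp

end Setup

end Vale.Agent.P193
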