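import Vale.Agent.P193.Target
import Vale.Agent.P193.Alg.Defs

/-!
# From a group with decidable word problem to a `Setup`
-/

namespace Vale.Agent.P193

/-- Every computable set of words over a finite alphabet is recognised by a machine. -/
def MachineExistence : Prop :=
  ∀ (At : Type) [Fintype At] [DecidableEq At] [Primcodable At] (D : List At → Bool),
    Computable D → ∃ M : Machine At, M.Recognizes fun t => D t = true

namespace Atom

/-- Atoms as a sum of finite types. -/
def equivSum (k : ℕ) : Atom k ≃ Fin k ⊕ Fin 4 where
  toFun
    | .gen i => .inl i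
    | .row => .inr 0
    | .col => .inr 1
    | .yT => .inr 2
    | .xT => .inr 3
  invFun
    | .inl i => .gen i
    | .inr 0 => .row
    | .inr 1 => .col
    | .inr 2 => .yT
    | .inr 3 => .xT
  left_inv a := by cases a <;> rfl
  right_inv a := by
    rcases a with i | j
    · rfl
    · fin_cases j <;> rfl

instance primcodable (k : ℕ) : Primcodable (Atom k) := .ofEquiv _ (equivSum k)

/-- The index of a generator atom. -/
def genOf {k : ℕ} : Atom k → Option (Fin k)
  | .gen i => some i
  | _ => none

/-- The generators occurring in a list of atoms. -/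
def gens {k : ℕ} (t : List (Atom k)) : List (Fin k) := t.filterMap genOf

theorem gens_frame {k : ℕ} {a b : Atom k} (ha : genOf a = none) (hb : genOf b = none)
    (w : List (Fin k)) : gens (a :: (w.map .gen ++ [b])) = w := by
  have h : gens (w.map Atom.gen) = w := by
    induction w with
    | nil => rfl
    | cons i w ih =>
      simp only [gens] at ih
      simp [gens, genOf, ih]
  simp only [gens] at h
  simp [gens, List.filterMap_append, ha, hb, h]

end Atom

/-- The decider for `ValidCode`, given one for trivial products. -/
def codeDecide {k : ℕ} (one : List (Fin k) → Bool) (t : List (Atom k)) : Bool :=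
  bif one (Atom.gens t) then decide (t = .row :: ((Atom.gens t).map .gen ++ [.col]))
  else decide (t = .yT :: ((Atom.gens t).map .gen ++ [.xT]))

theorem codeDecide_iff {K : Type} [Group K] {k : ℕ} (g : Fin k → K) (one : List (Fin k) → Bool)
    (h : ∀ w, one w = true ↔ (w.map g).prod = 1) (t : List (Atom k)) :
    codeDecide one t = true ↔ ValidCode g t := by
  constructor
  · intro ht
    cases hb : one (Atom.gens t)
    · simp only [codeDecide, hb, cond_false, decide_eq_true_eq] at ht
      exact Or.inr ⟨Atom.gens t, ht, fun he => by simp [(h _).2 he] at hb⟩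
    · simp only [codeDecide, hb, cond_true, decide_eq_true_eq] at ht
      exact Or.inl ⟨Atom.gens t, ht, (h _).1 hb⟩
  · rintro (⟨w, rfl, hw⟩ | ⟨w, rfl, hw⟩)
    · simp [codeDecide, Atom.gens_frame (a := .row) (b := .col) rfl rfl, (h w).2 hw]
    · have hb : one w = false := Bool.eq_false_iff.2 fun hb => hw ((h w).1 hb)
      simp [codeDecide, Atom.gens_frame (a := .yT) (b := .xT) rfl rfl, hb]

theorem codeDecide_computable {k : ℕ} {one : List (Fin k) → Bool} (h : Computable one) :
    Computable (codeDecide (k := k) one) := by
  have hg : Primrec (Atom.gens : List (Atom k) → List (Fin k)) :=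
    Primrec.listFilterMap Primrec.id ((Primrec.dom_finite Atom.genOf).comp Primrec.snd).to₂
  have hframe : ∀ a b : Atom k, Primrec fun t : List (Atom k) =>
      decide (t = a :: ((Atom.gens t).map .gen ++ [b])) := fun a b => by
    have hm : Primrec fun t : List (Atom k) => (Atom.gens t).map Atom.gen :=
      Primrec.list_map hg ((Primrec.dom_finite Atom.gen).comp Primrec.snd).to₂
    exact Primrec.eq.decide.comp Primrec.id
      (Primrec.list_cons.comp (Primrec.const a) (Primrec.list_append.comp hm (Primrec.const [b])))
  exact Computable.cond (h.comp hg.to_comp) (hframe .row .col).to_comp (hframe .yT .xT).to_comp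

section infinite

variable {n : ℕ}

/-- The index type of the monoid generators of `G × Multiplicative ℤ`. -/
abbrev GenIdx (n : ℕ) := (Fin n × Bool) ⊕ Bool

/-- The monoid generators of `G × Multiplicative ℤ`. -/
def genVal {G : Type} [Group G] (g : Fin n → G) : GenIdx n → G × Multiplicative ℤ
  | .inl a => (if a.2 then g a.1 else (g a.1)⁻¹, 1)
  | .inr b => (1, Multiplicative.ofAdd (if b then 1 else -1))

/-- Letters of the group part. -/
def groupPart (w : List (GenIdx n)) : List (Fin n × Bool) := w.filterMap Sum.getLeft?

/-- Occurrences of one of the two central letters. -/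
def countCentral (b : Bool) (w : List (GenIdx n)) : ℕ :=
  (w.filterMap fun a => if a = .inr b then some () else none).length

theorem prod_genVal {G : Type} [Group G] (g : Fin n → G) (w : List (GenIdx n)) :
    (w.map (genVal g)).prod = (evalWord g (groupPart w),
      Multiplicative.ofAdd ((countCentral true w : ℤ) - countCentral false w)) := by
  induction w with
  | nil => simp [evalWord, groupPart, countCentral, Prod.one_eq_mk]
  | cons a w ih =>
    rcases a with a | b
    · simp [ih, genVal, evalWord, groupPart, countCentral, Prod.mk_mul_mk]
    · rw [List.map_cons, List.prod_cons, ih]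
      cases b <;>
        simp only [genVal, evalWord, groupPart, countCentral, Prod.mk_mul_mk, one_mul,
          List.filterMap_cons, Sum.getLeft?_inr, Sum.inr.injEq, if_true, if_false,
          List.length_cons, Bool.false_eq_true, ← ofAdd_add, Nat.cast_add, Nat.cast_one,
          Bool.true_eq_false] <;> ring_nf

theorem closure_genVal {G : Type} [Group G] (g : Fin n → G)
    (hg : Subgroup.closure (Set.range g) = ⊤) :
    Submonoid.closure (Set.range (genVal g)) = ⊤ := by
  set M := Submonoid.closure (Set.range (genVal g))
  have hG : ∀ x : G, (x, (1 : Multiplicative ℤ)) ∈ M := by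
    intro x
    have hx : x ∈ Subgroup.closure (Set.range g) := hg ▸ Subgroup.mem_top x
    rw [← Subgroup.mem_toSubmonoid, Subgroup.closure_toSubmonoid] at hx
    induction hx using Submonoid.closure_induction with
    | mem y hy =>
      rcases hy with ⟨i, rfl⟩ | hy
      · exact Submonoid.subset_closure ⟨.inl (i, true), by simp [genVal]⟩
      · obtain ⟨i, hi⟩ := Set.mem_inv.1 hy
        exact Submonoid.subset_closure ⟨.inl (i, false), by simp [genVal, hi]⟩
    | one => exact M.one_mem
    | mul a b _ _ iha ihb => simpa using M.mul_mem iha ihb
  have hZ : ∀ z : Multiplicative ℤ, ((1 : G), z) ∈ M := by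
    intro z
    obtain ⟨i, rfl⟩ := Multiplicative.ofAdd.surjective z
    have hp : ((1 : G), Multiplicative.ofAdd (1 : ℤ)) ∈ M :=
      Submonoid.subset_closure ⟨.inr true, by simp [genVal]⟩
    have hm : ((1 : G), Multiplicative.ofAdd (-1 : ℤ)) ∈ M :=
      Submonoid.subset_closure ⟨.inr false, by simp [genVal]⟩
    induction i using Int.induction_on with
    | zero => exact M.one_mem
    | succ i ih => simpa [Prod.mk_mul_mk, ← ofAdd_add] using M.mul_mem ih hp
    | pred i ih =>
      have h := M.mul_mem ih hm
      rw [Prod.mk_mul_mk, one_mul, ← ofAdd_add, ← sub_eq_add_neg] at h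
      exact h
  refine eq_top_iff.2 fun x _ => ?_
  have h := M.mul_mem (hG x.1) (hZ x.2)
  simpa using h

/-- The triviality test on the monoid generators. -/
def trivialTest {k : ℕ} (e : Fin k ≃ GenIdx n) (d : List (Fin n × Bool) → Bool)
    (w : List (Fin k)) : Bool :=
  d (groupPart (w.map e)) && decide (countCentral true (w.map e) = countCentral false (w.map e))

theorem trivialTest_iff {G : Type} [Group G] {g : Fin n → G} {k : ℕ} (e : Fin k ≃ GenIdx n)
    {d : List (Fin n × Bool) → Bool} (hd : ∀ w, d w = true ↔ evalWord g w = 1)
    (w : List (Fin k)) :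
    trivialTest e d w = true ↔ (w.map fun i => genVal g (e i)).prod = 1 := by
  have h : (w.map fun i => genVal g (e i)) = (w.map e).map (genVal g) := by
    rw [List.map_map]; rfl
  rw [h, prod_genVal, Prod.mk_eq_one, ofAdd_eq_one, sub_eq_zero, Nat.cast_inj]
  simp [trivialTest, hd]

theorem trivialTest_computable {k : ℕ} (e : Fin k ≃ GenIdx n) {d : List (Fin n × Bool) → Bool}
    (hd : Computable d) : Computable (trivialTest e d) := by
  have hm : Primrec fun w : List (Fin k) => w.map e :=
    Primrec.list_map Primrec.id ((Primrec.dom_finite fun i => e i).comp Primrec.snd).to₂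
  have hG : Primrec fun w : List (Fin k) => groupPart (w.map e) :=
    Primrec.listFilterMap hm ((Primrec.dom_finite Sum.getLeft?).comp Primrec.snd).to₂
  have hc : ∀ b : Bool, Primrec fun w : List (Fin k) => countCentral b (w.map e) := fun b =>
    Primrec.list_length.comp (Primrec.listFilterMap hm
      ((Primrec.dom_finite fun a : GenIdx n => if a = .inr b then some () else none).comp
        Primrec.snd).to₂)
  exact (Primrec.and.to_comp).comp (hd.comp hG.to_comp)
    (Primrec.eq.decide.comp (hc true) (hc false)).to_comp

end infinite

/-- A group with decidable word problem embeds in the group of some `Setup`. -/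
theorem exists_setup (hM : MachineExistence) (G : Type) [Group G]
    (hG : HasDecidableWordProblem G) :
    ∃ D : Setup, ∃ f : G →* D.K, Function.Injective f := by
  classical
  obtain ⟨n, g, hgen, inst, hcomp⟩ := hG
  let e : Fin (Fintype.card (GenIdx n)) ≃ GenIdx n := (Fintype.equivFin (GenIdx n)).symm
  let gK : Fin (Fintype.card (GenIdx n)) → G × Multiplicative ℤ := fun i => genVal g (e i)
  let d : List (Fin n × Bool) → Bool := fun w => @decide (evalWord g w = 1) (inst w)
  have hd : ∀ w, d w = true ↔ evalWord g w = 1 := fun w => decide_eq_true_iff
  obtain ⟨M, hrec⟩ := hM (Atom (Fintype.card (GenIdx n))) (codeDecide (trivialTest e d))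
    (codeDecide_computable (trivialTest_computable e hcomp))
  have hcl : Submonoid.closure (Set.range gK) = ⊤ := by
    have h : Set.range gK = Set.range (genVal g) := e.surjective.range_comp (genVal g)
    rw [h]
    exact closure_genVal g hgen
  refine ⟨{ K := G × Multiplicative ℤ
            k := Fintype.card (GenIdx n)
            g := gK
            closure_range := hcl
            M := M
            spec := fun t => (hrec t).trans
              (codeDecide_iff gK _ (trivialTest_iff e hd) t) },
    MonoidHom.inl G (Multiplicative ℤ), fun a b h => congrArg Prod.fst h⟩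

end Vale.Agent.P193
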