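import Vale.Agent.P193.Alg.Normal

/-!
# Extensions making an element pure, and separation of finitely many words
-/

namespace Vale.Agent.P193.Setup.Derived

open scoped Classical

variable {D : Setup} (R : D.Derived)

/-- The pure elements: combinations of the isometries of words. -/
noncomputable def pureSpan : Submodule (ZMod 2) D.Alg :=
  Submodule.span (ZMod 2) (Set.range R.X)

theorem X_mem_pureSpan (w : List D.Lam) : R.X w ∈ R.pureSpan :=
  Submodule.subset_span ⟨w, rfl⟩

theorem pureSpan_mul_X {m : D.Alg} (hm : m ∈ R.pureSpan) (v : List D.Lam) :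
    m * R.X v ∈ R.pureSpan := by
  induction hm using Submodule.span_induction with
  | mem m hm =>
    obtain ⟨w, rfl⟩ := hm
    rw [← X_append]
    exact R.X_mem_pureSpan _
  | zero => simp
  | add a b _ _ ha hb => rw [add_mul]; exact add_mem ha hb
  | smul c a _ ha => rw [smul_mul_assoc]; exact Submodule.smul_mem _ c ha

/-- Every word has an extension on which `a` is pure. -/
def Extensible (a : D.Alg) : Prop :=
  ∀ w : List D.Lam, ∃ v, a * R.X (w ++ v) ∈ R.pureSpan

variable {R}

theorem Extensible.add {a b : D.Alg} (ha : R.Extensible a) (hb : R.Extensible b) :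
    R.Extensible (a + b) := by
  intro w
  obtain ⟨v, hv⟩ := ha w
  obtain ⟨v', hv'⟩ := hb (w ++ v)
  refine ⟨v ++ v', ?_⟩
  rw [← List.append_assoc, add_mul]
  refine add_mem ?_ hv'
  rw [X_append, ← mul_assoc]
  exact R.pureSpan_mul_X hv v'

theorem Extensible.list {a : D.Alg} (ha : R.Extensible a) (us : List (List D.Lam)) :
    ∃ v, ∀ u ∈ us, a * R.X (u ++ v) ∈ R.pureSpan := by
  induction us with
  | nil => exact ⟨[], by simp⟩
  | cons u us ih =>
    obtain ⟨v, hv⟩ := ih
    obtain ⟨v', hv'⟩ := ha (u ++ v)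
    refine ⟨v ++ v', fun z hz => ?_⟩
    rw [← List.append_assoc]
    rcases List.mem_cons.1 hz with rfl | hz
    · exact hv'
    · rw [X_append, ← mul_assoc]
      exact R.pureSpan_mul_X (hv z hz) v'

theorem Extensible.mul {a b : D.Alg} (ha : R.Extensible a) (hb : R.Extensible b) :
    R.Extensible (a * b) := by
  intro w
  obtain ⟨v, hv⟩ := hb w
  obtain ⟨c, hc⟩ := Finsupp.mem_span_range_iff_exists_finsupp.1 hv
  obtain ⟨v', hv'⟩ := ha.list c.support.toList
  refine ⟨v ++ v', ?_⟩
  rw [← List.append_assoc, X_append, mul_assoc a, ← mul_assoc b, ← hc, Finsupp.sum, Finset.sum_mul,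
    Finset.mul_sum]
  refine sum_mem fun u hu => ?_
  rw [smul_mul_assoc, mul_smul_comm, ← X_append]
  exact Submodule.smul_mem _ _ (hv' u (Finset.mem_toList.2 hu))

variable (R)

theorem extensible_zero : R.Extensible 0 := fun w => ⟨[], by simp⟩

theorem extensible_one : R.Extensible 1 := fun w => ⟨[], by
  rw [one_mul]; exact R.X_mem_pureSpan _⟩

theorem extensible_smul (c : ZMod 2) {a : D.Alg} (ha : R.Extensible a) :
    R.Extensible (c • a) := fun w => by
  obtain ⟨v, hv⟩ := ha w
  exact ⟨v, by rw [smul_mul_assoc]; exact Submodule.smul_mem _ c hv⟩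

theorem extensible_lx (l : D.Lam) : R.Extensible (R.lx l) := fun w =>
  ⟨[], by rw [← X_cons]; exact R.X_mem_pureSpan _⟩

theorem extensible_kk (k : D.K) : R.Extensible (R.kk k) := fun w => by
  obtain ⟨w', k', e⟩ := R.kk_mul_X k w
  refine ⟨[.inr 1], ?_⟩
  rw [X_append, ← mul_assoc, e, mul_assoc, X_single]
  have h : R.kk k' * R.lx (.inr (1 : D.K)) = R.X [.inr k'] := by simp [X_single, lx]
  rw [h, ← X_append]
  exact R.X_mem_pureSpan _

theorem extensible_ly (l : D.Lam) : R.Extensible (R.ly l) := fun w => by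
  refine ⟨[.inr 1], ?_⟩
  obtain ⟨m, u, e⟩ := List.exists_cons_of_ne_nil (show w ++ [Sum.inr (1 : D.K)] ≠ [] by simp)
  rw [e, X_cons, ← mul_assoc, ly_mul_lx]
  split_ifs
  · rw [one_mul]; exact R.X_mem_pureSpan _
  · simp

theorem extensible_X (U : List D.Lam) : R.Extensible (R.X U) := fun w =>
  ⟨[], by rw [← X_append]; exact R.X_mem_pureSpan _⟩

theorem extensible_Y (V : List D.Lam) : R.Extensible (R.Y V) := by
  induction V with
  | nil => rw [Y_nil]; exact R.extensible_one
  | cons l V ih => rw [Y_cons]; exact ih.mul (R.extensible_ly l)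

theorem extensible_A0 {a : D.Alg} (ha : a ∈ R.A0) : R.Extensible a := by
  induction ha using Submodule.span_induction with
  | mem a ha =>
    obtain ⟨U, k, V, rfl⟩ := ha
    exact ((R.extensible_X U).mul (R.extensible_kk k)).mul (R.extensible_Y V)
  | zero => exact R.extensible_zero
  | add a b _ _ ha hb => exact ha.add hb
  | smul c a _ ha => exact R.extensible_smul c ha

theorem extensible_val (b : NWord D) : R.Extensible (R.val b) := by
  intro w
  induction w generalizing b with
  | nil =>
    refine ⟨[.inr 1], ?_⟩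
    rw [List.nil_append, X_single]
    cases h : colourOf b.2 with
    | none => rw [R.val_eq_zero h, zero_mul]; exact zero_mem _
    | some σ => rw [R.val_mul_tag h]; exact R.X_mem_pureSpan _
  | cons l w ih =>
    by_cases hl : Plain l
    · rcases R.val_mul_plain hl b with h | ⟨u, b', -, h⟩
      · exact ⟨[], by rw [List.cons_append, X_cons, ← mul_assoc, h, zero_mul]; exact zero_mem _⟩
      · obtain ⟨v, hv⟩ := ih b'
        obtain ⟨c, hc⟩ := Finsupp.mem_span_range_iff_exists_finsupp.1 hv
        refine ⟨v, ?_⟩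
        rw [List.cons_append, X_cons, ← mul_assoc, h, mul_assoc, ← hc, Finsupp.sum, Finset.mul_sum]
        refine sum_mem fun z _ => ?_
        rw [mul_smul_comm, ← X_append]
        exact Submodule.smul_mem _ _ (R.X_mem_pureSpan _)
    · obtain ⟨v, hv⟩ := R.extensible_A0 (R.val_mul_special hl b) w
      exact ⟨v, by rw [List.cons_append, X_cons, ← mul_assoc]; exact hv⟩

theorem extensible (a : D.Alg) : R.Extensible a := by
  induction R.mem_Sp a using Submodule.span_induction with
  | mem m hm =>
    obtain ⟨U, b, V, rfl⟩ := hm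
    exact ((R.extensible_X U).mul (R.extensible_val b)).mul (R.extensible_Y V)
  | zero => exact R.extensible_zero
  | add a b _ _ ha hb => exact ha.add hb
  | smul c a _ ha => exact R.extensible_smul c ha

/-- Density: every word extends to one on which `a` is pure. -/
theorem exists_pure (a : D.Alg) (w : List D.Lam) :
    ∃ v, a * R.X (w ++ v) ∈ Submodule.span (ZMod 2) (Set.range R.X) :=
  R.extensible a w

/-- Fresh tags separate finitely many words. -/
theorem exists_separate (S : Finset (List D.Lam)) (n : ℕ) :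
    ∃ f : Fin n → List D.Lam, ∀ w ∈ S, ∀ w' ∈ S, ∀ i j, (w, i) ≠ (w', j) →
      R.Y (w ++ f i) * R.X (w' ++ f j) = 0 := by
  have hfin : {k : D.K | ∃ w ∈ S, (Sum.inr k : D.Lam) ∈ w}.Finite := by
    have hsub : {k : D.K | ∃ w ∈ S, (Sum.inr k : D.Lam) ∈ w} ⊆
        ((S.biUnion List.toFinset).preimage Sum.inr Sum.inr_injective.injOn : Set D.K) := by
      rintro k ⟨w, hw, hk⟩
      simp only [Finset.mem_coe, Finset.mem_preimage, Finset.mem_biUnion, List.mem_toFinset]
      exact ⟨w, hw, hk⟩
    exact (Finset.finite_toSet _).subset hsub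
  let e : ℕ ↪ _ := hfin.infinite_compl.natEmbedding
  have hfresh : ∀ m, ∀ w ∈ S, (Sum.inr (e m).1 : D.Lam) ∉ w := fun m w hw hmem =>
    (e m).2 ⟨w, hw, hmem⟩
  refine ⟨fun i => [.inr (e i).1], fun w hw w' hw' i j hne => ?_⟩
  have key : ∀ {u u' : List D.Lam} {a b : Fin n}, u ∈ S → u' ∈ S →
      u ++ [.inr (e a).1] <+: u' ++ [.inr (e b).1] → (u, a) = (u', b) := by
    intro u u' a b hu hu' h
    obtain ⟨r, hr⟩ := h
    rcases List.eq_nil_or_concat r with rfl | ⟨r', z, rfl⟩
    · rw [List.append_nil, List.append_singleton_inj] at hr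
      obtain ⟨rfl, h2⟩ := hr
      rw [Sum.inr.injEq] at h2
      rw [Prod.mk.injEq]
      exact ⟨rfl, Fin.ext (e.injective (Subtype.ext h2))⟩
    · rw [List.concat_eq_append, ← List.append_assoc, List.append_singleton_inj] at hr
      obtain ⟨h1, -⟩ := hr
      exact absurd (by rw [← h1]; simp) (hfresh a u' hu')
  exact R.Y_mul_X_eq_zero (fun h => hne (key hw hw' h)) fun h => hne (key hw' hw h).symm

end Vale.Agent.P193.Setup.Derived
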