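import Vale.Agent.P193.Alg.Normal

/-!
# A nonzero element of the algebra has a nonzero pure column
-/

namespace Vale.Agent.P193.Setup.Derived

open scoped Classical

variable {D : Setup} (R : D.Derived)

/-- Combinations of isometries of words. -/
noncomputable def Pure : Submodule (ZMod 2) D.Alg :=
  Submodule.span (ZMod 2) (Set.range R.X)

/-- `a` vanishes or has a nonzero pure column. -/
def Det (a : D.Alg) : Prop := a = 0 ∨ ∃ w, a * R.X w ∈ R.Pure ∧ a * R.X w ≠ 0

theorem Det.of_lx {R : D.Derived} {a : D.Alg} (l : D.Lam) (h : R.Det (a * R.lx l))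
    (hne : a * R.lx l ≠ 0) : R.Det a := by
  rcases h with h | ⟨w, h1, h2⟩
  · exact absurd h hne
  · exact Or.inr ⟨l :: w, by rwa [X_cons, ← mul_assoc], by rwa [X_cons, ← mul_assoc]⟩

theorem exists_fresh (s : Finset D.K) : ∃ j, j ∉ s := Infinite.exists_notMem_finset s

/-- Isometries of distinct words are linearly independent. -/
theorem sum_X_ne_zero [Nontrivial D.Alg] {ι : Type*} (c : ι →₀ ZMod 2) (f : ι → List D.Lam)
    (hf : Set.InjOn f c.support) (hc : c ≠ 0) : (c.sum fun i r => r • R.X (f i)) ≠ 0 := by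
  obtain ⟨i0, hi0⟩ := Finsupp.support_nonempty_iff.2 hc
  obtain ⟨l, hl⟩ := exists_fresh (c.support.biUnion fun i => (f i).toFinset.toRight)
  have hl' : ∀ i ∈ c.support, (Sum.inr l : D.Lam) ∉ f i := fun i hi h =>
    hl (Finset.mem_biUnion.2 ⟨i, hi, by simpa using h⟩)
  intro h0
  have h := congrArg (fun e => R.Y (f i0 ++ [.inr l]) * (e * R.X [.inr l])) h0
  simp only [zero_mul, mul_zero] at h
  rw [Finsupp.sum, Finset.sum_mul, Finset.mul_sum, Finset.sum_eq_single i0] at h
  · rw [smul_mul_assoc, mul_smul_comm, ← X_append, Y_mul_X_self] at h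
    have := Finsupp.mem_support_iff.1 hi0
    simp [this] at h
  · intro i hi hne
    rw [smul_mul_assoc, mul_smul_comm, ← X_append]
    have key : ∀ {v w : List D.Lam}, (Sum.inr l : D.Lam) ∉ w →
        v ++ [Sum.inr l] <+: w ++ [Sum.inr l] → v = w := by
      intro v w hw hp
      rcases List.prefix_concat_iff.1 hp with h | h
      · exact List.append_cancel_right h
      · exact absurd (h.subset (by simp)) hw
    rw [R.Y_mul_X_eq_zero, smul_zero]
    · intro hp
      exact hne (hf hi hi0 (key (hl' i hi) hp).symm)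
    · intro hp
      exact hne (hf hi hi0 (key (hl' i0 hi0) hp))
  · exact fun h' => absurd hi0 h'

/-- The projection outside the finite alphabet and finitely many tags. -/
noncomputable def pS (S : Finset D.K) : D.Alg :=
  D.p - ∑ k ∈ S, R.lx (.inr k) * R.ly (.inr k)

theorem ly_tag_mul_pS {S : Finset D.K} {k : D.K} (hk : k ∈ S) : R.ly (.inr k) * R.pS S = 0 := by
  rw [pS, mul_sub, tag_mul_p, Finset.mul_sum, Finset.sum_eq_single k]
  · rw [← mul_assoc, ly_mul_lx_self, one_mul, sub_self]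
  · intro j _ hj
    rw [← mul_assoc, ly_mul_lx, if_neg (by simpa using hj.symm), zero_mul]
  · exact fun h => absurd hk h

theorem y_mul_pS (a : D.Letter) (S : Finset D.K) : R.ly (.inl a) * R.pS S = 0 := by
  rw [pS, mul_sub, Finset.mul_sum]
  simp only [← mul_assoc, ly_mul_lx]
  simp [show R.ly (.inl a) = D.y a from rfl, y_mul_p]

theorem p_mul_p : D.p * D.p = D.p := by
  nth_rewrite 2 [p_eq]
  simp [mul_sub, Finset.mul_sum, ← mul_assoc, p_mul_x]

theorem p_mul_pS (S : Finset D.K) : D.p * R.pS S = R.pS S := by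
  simp [pS, mul_sub, Finset.mul_sum, ← mul_assoc, p_mul_tag, p_mul_p]

theorem pS_mul_pS {S S' : Finset D.K} (h : S ⊆ S') : R.pS S * R.pS S' = R.pS S' := by
  rw [pS, sub_mul, p_mul_pS, Finset.sum_mul, Finset.sum_eq_zero, sub_zero]
  intro k hk
  rw [mul_assoc, R.ly_tag_mul_pS (h hk), mul_zero]

theorem pS_mul_tag {S : Finset D.K} {j : D.K} (hj : j ∉ S) :
    R.pS S * R.lx (.inr j) = R.lx (.inr j) := by
  rw [pS, sub_mul, p_mul_tag, Finset.sum_mul, Finset.sum_eq_zero, sub_zero]
  intro k hk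
  rw [mul_assoc, ly_mul_lx, if_neg, mul_zero]
  rintro ⟨⟩
  exact hj hk

theorem decomp (a : D.Alg) (S : Finset D.K) :
    a = (∑ l, a * R.lx (.inl l) * R.ly (.inl l)) +
      (∑ k ∈ S, a * R.lx (.inr k) * R.ly (.inr k)) + a * R.pS S := by
  conv_lhs => rw [← mul_one a, one_eq]
  simp [pS, lx, ly, mul_add, mul_sub, Finset.mul_sum, mul_assoc]

/-- What is left of an element on the projection outside finitely many letters. -/
noncomputable def G (S : Finset D.K) : Submodule (ZMod 2) D.Alg :=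
  Submodule.span (ZMod 2) (Set.range fun i : List D.Lam × D.K => R.X i.1 * R.kk i.2 * R.pS S)

theorem G_mono {S S' : Finset D.K} (h : S ⊆ S') {e : D.Alg} (he : e ∈ R.G S) :
    e * R.pS S' ∈ R.G S' := by
  induction he using Submodule.span_induction with
  | mem e he =>
    obtain ⟨i, rfl⟩ := he
    exact Submodule.subset_span ⟨i, by simp only; rw [mul_assoc _ (R.pS S), R.pS_mul_pS h]⟩
  | zero => simp
  | add a b _ _ ha hb => rw [add_mul]; exact add_mem ha hb
  | smul c a _ ha => rw [smul_mul_assoc]; exact Submodule.smul_mem _ c ha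

theorem exists_pS (a : D.Alg) : ∃ S, a * R.pS S ∈ R.G S := by
  induction R.mem_Sp a using Submodule.span_induction with
  | mem m hm =>
    obtain ⟨U, b, V, rfl⟩ := hm
    rcases V with _ | ⟨v, V⟩
    · refine ⟨∅, ?_⟩
      have hp : R.pS ∅ = D.p := by simp [pS]
      cases h : colourOf b.2 with
      | none => simp [mono, R.val_eq_zero h]
      | some σ =>
        refine Submodule.subset_span ⟨(U ++ pre b.1 b.2, last b.1 b.2), ?_⟩
        simp [mono, Y_nil, hp, X_append, mul_assoc, R.val_mul_p h]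
    · rcases v with a | k
      · exact ⟨∅, by simp [mono, Y_cons, mul_assoc, R.y_mul_pS]⟩
      · exact ⟨{k}, by simp [mono, Y_cons, mul_assoc, R.ly_tag_mul_pS (Finset.mem_singleton_self k)]⟩
  | zero => exact ⟨∅, by simp⟩
  | add a b _ _ ha hb =>
    obtain ⟨S, hS⟩ := ha
    obtain ⟨T, hT⟩ := hb
    refine ⟨S ∪ T, ?_⟩
    have h1 := R.G_mono (Finset.subset_union_left (s₂ := T)) hS
    have h2 := R.G_mono (Finset.subset_union_right (s₁ := S)) hT
    rw [mul_assoc, R.pS_mul_pS Finset.subset_union_left] at h1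
    rw [mul_assoc, R.pS_mul_pS Finset.subset_union_right] at h2
    rw [add_mul]
    exact add_mem h1 h2
  | smul c a _ ha =>
    obtain ⟨S, hS⟩ := ha
    exact ⟨S, by rw [smul_mul_assoc]; exact Submodule.smul_mem _ c hS⟩

/-- If every column has the dichotomy, so does the element. -/
theorem det_reduce [Nontrivial D.Alg] (a : D.Alg) (h : ∀ l, R.Det (a * R.lx l)) : R.Det a := by
  by_cases hne : ∃ l, a * R.lx l ≠ 0
  · obtain ⟨l, hl⟩ := hne
    exact Det.of_lx l (h l) hl
  simp only [not_exists, not_not] at hne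
  obtain ⟨S, hS⟩ := R.exists_pS a
  obtain ⟨c, hc⟩ := (Finsupp.mem_span_range_iff_exists_finsupp).1 hS
  left
  have hc0 : c = 0 := by
    by_contra hc0
    obtain ⟨j, hj⟩ := exists_fresh S
    refine R.sum_X_ne_zero c (fun i => i.1 ++ [.inr (i.2 * j)]) ?_ hc0 ?_
    · rintro ⟨w, k⟩ - ⟨w', k'⟩ - e
      obtain ⟨e1, e2⟩ := List.append_inj' e (by simp)
      simp only [List.cons.injEq, Sum.inr.injEq, mul_left_inj, and_true] at e2
      exact Prod.ext e1 e2
    · have e := congrArg (· * R.lx (.inr j)) hc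
      simp only [mul_assoc, R.pS_mul_tag hj, hne, Finsupp.sum, Finset.sum_mul, smul_mul_assoc] at e
      rw [← e, Finsupp.sum]
      refine Finset.sum_congr rfl fun i _ => ?_
      simp [X_append, X_single, lx, mul_assoc]
  rw [R.decomp a S]
  simp [hne, ← hc, hc0]

/-! ## Stages -/

/-- Group monomials of bounded right length. -/
noncomputable def L0 (M : ℕ) : Submodule (ZMod 2) D.Alg :=
  Submodule.span (ZMod 2) {m | ∃ U b V, b.2 = [] ∧ V.length ≤ M ∧ m = R.mono U b V}

/-- Operator monomials without right part, and group monomials of bounded right length. -/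
noncomputable def L1 (M : ℕ) : Submodule (ZMod 2) D.Alg :=
  Submodule.span (ZMod 2)
    {m | ∃ U b V, ((b.2 = [] ∧ V.length ≤ M) ∨ V = []) ∧ m = R.mono U b V}

/-- Group monomials, and operator monomials of bounded right length. -/
noncomputable def L2 (N : ℕ) : Submodule (ZMod 2) D.Alg :=
  Submodule.span (ZMod 2) {m | ∃ U b V, (b.2 = [] ∨ V.length ≤ N) ∧ m = R.mono U b V}

theorem span_map_mul {s : Set D.Alg} {T : Submodule (ZMod 2) D.Alg} (c : D.Alg)
    (h : ∀ m ∈ s, m * c ∈ T) {a : D.Alg} (ha : a ∈ Submodule.span (ZMod 2) s) : a * c ∈ T := by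
  induction ha using Submodule.span_induction with
  | mem m hm => exact h m hm
  | zero => simp
  | add a b _ _ ha hb => rw [add_mul]; exact add_mem ha hb
  | smul r a _ ha => rw [smul_mul_assoc]; exact Submodule.smul_mem _ r ha

theorem monoY_mul_lx (U : List D.Lam) (b : NWord D) (v : D.Lam) (V : List D.Lam) (l : D.Lam) :
    R.mono U b (v :: V) * R.lx l = if v = l then R.mono U b V else 0 := by
  rw [mono, Y_cons, mul_assoc, mul_assoc _ (R.ly v), ly_mul_lx]
  split_ifs <;> simp [mono]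

theorem monoK_mul_lx (U : List D.Lam) (b : NWord D) (hb : b.2 = []) (l : D.Lam) :
    ∃ U' b', b'.2 = [] ∧ R.mono U b [] * R.lx l = R.mono U' b' [] := by
  obtain ⟨k, bl⟩ := b
  simp only at hb
  subst hb
  obtain ⟨U', j, e⟩ := R.kk_mul_X k [l]
  rw [X_single] at e
  refine ⟨U ++ U', (j, []), rfl, ?_⟩
  simp [mono, Y_nil, val_nil, X_append, mul_assoc, e]

theorem monoOp_mul_plain (U : List D.Lam) (b : NWord D) {l : D.Lam} (hl : Plain l) :
    R.mono U b [] * R.lx l = 0 ∨ ∃ U' b', R.mono U b [] * R.lx l = R.mono U' b' [] := by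
  rcases R.val_mul_plain hl b with h | ⟨u, b', -, h⟩
  · left; simp [mono, Y_nil, mul_assoc, h]
  · right
    exact ⟨U ++ u, b', by simp [mono, Y_nil, X_append, mul_assoc, h]⟩

theorem L0_succ_mul {M : ℕ} {a : D.Alg} (ha : a ∈ R.L0 (M + 1)) (l : D.Lam) :
    a * R.lx l ∈ R.L0 M := by
  refine span_map_mul _ ?_ ha
  rintro m ⟨U, b, V, hb, hV, rfl⟩
  rcases V with _ | ⟨v, V⟩
  · obtain ⟨U', b', hb', e⟩ := R.monoK_mul_lx U b hb l
    exact Submodule.subset_span ⟨U', b', [], hb', by simp, e⟩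
  · rw [monoY_mul_lx]
    split_ifs
    · exact Submodule.subset_span ⟨U, b, V, hb, by simpa using hV, rfl⟩
    · simp

theorem L1_succ_mul_plain {M : ℕ} {a : D.Alg} (ha : a ∈ R.L1 (M + 1)) {l : D.Lam} (hl : Plain l) :
    a * R.lx l ∈ R.L1 M := by
  refine span_map_mul _ ?_ ha
  rintro m ⟨U, b, V, h, rfl⟩
  rcases V with _ | ⟨v, V⟩
  · rcases R.monoOp_mul_plain U b hl with e | ⟨U', b', e⟩
    · rw [e]; exact zero_mem _
    · exact Submodule.subset_span ⟨U', b', [], Or.inr rfl, e⟩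
  · rw [monoY_mul_lx]
    rcases h with ⟨hb, hV⟩ | h
    · split_ifs
      · exact Submodule.subset_span ⟨U, b, V, Or.inl ⟨hb, by simpa using hV⟩, rfl⟩
      · simp
    · simp at h

theorem L1_mul_special {M : ℕ} {a : D.Alg} (ha : a ∈ R.L1 M) {l : D.Lam} (hl : ¬ Plain l) :
    a * R.lx l ∈ R.A0 := by
  refine span_map_mul _ ?_ ha
  rintro m ⟨U, b, V, h, rfl⟩
  rcases h with ⟨hb, -⟩ | rfl
  · obtain ⟨k, bl⟩ := b
    simp only at hb
    subst hb
    rw [mono, val_nil]
    exact R.A0_mul (R.monoK_mem_A0 _ _ _) (R.lx_mem_A0 l)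
  · rw [mono, Y_nil, mul_one, mul_assoc]
    exact R.A0_mul (R.X_mem_A0 U) (R.val_mul_special hl b)

theorem A0_le_L2 (N : ℕ) : R.A0 ≤ R.L2 N := by
  refine Submodule.span_le.2 ?_
  rintro m ⟨U, k, V, rfl⟩
  exact Submodule.subset_span ⟨U, (k, []), V, Or.inl rfl, by rw [mono, val_nil]⟩

theorem L2_succ_mul {N : ℕ} {a : D.Alg} (ha : a ∈ R.L2 (N + 1)) (l : D.Lam) :
    a * R.lx l ∈ R.L2 N := by
  refine span_map_mul _ ?_ ha
  rintro m ⟨U, b, V, h, rfl⟩
  rcases V with _ | ⟨v, V⟩
  · by_cases hl : Plain l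
    · rcases R.monoOp_mul_plain U b hl with e | ⟨U', b', e⟩
      · rw [e]; exact zero_mem _
      · exact Submodule.subset_span ⟨U', b', [], Or.inr (by simp), e⟩
    · rw [mono, Y_nil, mul_one, mul_assoc]
      exact R.A0_le_L2 N (R.A0_mul (R.X_mem_A0 U) (R.val_mul_special hl b))
  · rw [monoY_mul_lx]
    split_ifs
    · exact Submodule.subset_span ⟨U, b, V, h.imp id (by simp), rfl⟩
    · simp

theorem exists_L0 {a : D.Alg} (ha : a ∈ R.A0) : ∃ M, a ∈ R.L0 M := by
  induction ha using Submodule.span_induction with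
  | mem m hm =>
    obtain ⟨U, k, V, rfl⟩ := hm
    exact ⟨V.length, Submodule.subset_span ⟨U, (k, []), V, rfl, le_rfl, by rw [mono, val_nil]⟩⟩
  | zero => exact ⟨0, zero_mem _⟩
  | add a b _ _ ha hb =>
    obtain ⟨M, hM⟩ := ha
    obtain ⟨N, hN⟩ := hb
    have mono_L0 : ∀ {M N}, M ≤ N → R.L0 M ≤ R.L0 N := fun h => Submodule.span_mono
      fun m ⟨U, b, V, h1, h2, h3⟩ => ⟨U, b, V, h1, h2.trans h, h3⟩
    exact ⟨max M N, add_mem (mono_L0 (le_max_left _ _) hM) (mono_L0 (le_max_right _ _) hN)⟩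
  | smul c a _ ha => obtain ⟨M, hM⟩ := ha; exact ⟨M, Submodule.smul_mem _ c hM⟩

theorem exists_L1 {a : D.Alg} (ha : a ∈ R.L2 0) : ∃ M, a ∈ R.L1 M := by
  induction ha using Submodule.span_induction with
  | mem m hm =>
    obtain ⟨U, b, V, h, rfl⟩ := hm
    exact ⟨V.length, Submodule.subset_span
      ⟨U, b, V, h.imp (fun h => ⟨h, le_rfl⟩) (by simp), rfl⟩⟩
  | zero => exact ⟨0, zero_mem _⟩
  | add a b _ _ ha hb =>
    obtain ⟨M, hM⟩ := ha
    obtain ⟨N, hN⟩ := hb
    have mono_L1 : ∀ {M N}, M ≤ N → R.L1 M ≤ R.L1 N := fun h => Submodule.span_mono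
      fun m ⟨U, b, V, h1, h3⟩ => ⟨U, b, V, h1.imp (fun h1 => ⟨h1.1, h1.2.trans h⟩) id, h3⟩
    exact ⟨max M N, add_mem (mono_L1 (le_max_left _ _) hM) (mono_L1 (le_max_right _ _) hN)⟩
  | smul c a _ ha => obtain ⟨M, hM⟩ := ha; exact ⟨M, Submodule.smul_mem _ c hM⟩

theorem exists_L2 (a : D.Alg) : ∃ N, a ∈ R.L2 N := by
  induction R.mem_Sp a using Submodule.span_induction with
  | mem m hm =>
    obtain ⟨U, b, V, rfl⟩ := hm
    exact ⟨V.length, Submodule.subset_span ⟨U, b, V, Or.inr le_rfl, rfl⟩⟩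
  | zero => exact ⟨0, zero_mem _⟩
  | add a b _ _ ha hb =>
    obtain ⟨M, hM⟩ := ha
    obtain ⟨N, hN⟩ := hb
    have mono_L2 : ∀ {M N}, M ≤ N → R.L2 M ≤ R.L2 N := fun h => Submodule.span_mono
      fun m ⟨U, b, V, h1, h3⟩ => ⟨U, b, V, h1.imp id fun h1 => h1.trans h, h3⟩
    exact ⟨max M N, add_mem (mono_L2 (le_max_left _ _) hM) (mono_L2 (le_max_right _ _) hN)⟩
  | smul c a _ ha => obtain ⟨M, hM⟩ := ha; exact ⟨M, Submodule.smul_mem _ c hM⟩

/-! ## The base: no right parts at all -/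

theorem commute_val_pad (b : NWord D) : Commute (R.val b) (D.x .pad) := by
  obtain ⟨k0, l⟩ := b
  induction l generalizing k0 with
  | nil => rw [val_nil]; exact R.kk_mul_x k0 .pad
  | cons c l ih =>
    obtain ⟨q, k⟩ := c
    rw [val_cons]
    exact (Commute.mul_left (R.kk_mul_x k0 .pad) ((Commute.mul_left (op_mul_pad q) (ih k))))

theorem X_pads (M : ℕ) : R.X (List.replicate M (Sum.inl Letter.pad)) = D.x .pad ^ M := by
  simp [X, lx, List.prod_replicate]

theorem append_pads_cancel {α : Type*} {a : α} {U U' P P' : List α} {M : ℕ} (hM : 0 < M)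
    (hP : a ∉ P) (hP' : a ∉ P')
    (h : U ++ List.replicate M a ++ P = U' ++ List.replicate M a ++ P') : U = U' ∧ P = P' := by
  obtain ⟨n, rfl⟩ := Nat.exists_eq_succ_of_ne_zero hM.ne'
  have e : ∀ U P : List α, a ∉ P → ((U ++ List.replicate (n + 1) a ++ P).reverse.takeWhile
      (fun c => !decide (c = a))) = P.reverse := by
    intro U P hP
    rw [List.reverse_append, List.takeWhile_append_of_pos]
    · have h2 : (U ++ List.replicate (n + 1) a).reverse = a :: (List.replicate n a ++ U.reverse) := by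
        rw [List.reverse_append, List.reverse_replicate, List.replicate_succ, List.cons_append]
      rw [h2, List.takeWhile_cons]
      simp
    · intro c hc
      simp only [List.mem_reverse] at hc
      simp only [Bool.not_eq_true', decide_eq_false_iff_not]
      rintro rfl
      exact hP hc
  have hPP : P = P' := by
    have := e U P hP
    rw [h, e U' P' hP'] at this
    exact (List.reverse_inj.1 this).symm
  subst hPP
  exact ⟨List.append_cancel_right (List.append_cancel_right h), rfl⟩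

theorem det_base [Nontrivial D.Alg] {a : D.Alg} (ha : a ∈ R.L1 0) : R.Det a := by
  let ι := {i : List D.Lam × NWord D // (colourOf i.2.2).isSome}
  have ha' : a ∈ Submodule.span (ZMod 2) (Set.range fun i : ι => R.X i.1.1 * R.val i.1.2) := by
    refine Submodule.span_le.2 ?_ ha
    rintro m ⟨U, b, V, h, rfl⟩
    obtain rfl : V = [] := by
      rcases h with ⟨-, hV⟩ | h
      · simpa using hV
      · exact h
    rw [mono, Y_nil, mul_one]
    cases hc : colourOf b.2 with
    | none => rw [R.val_eq_zero hc, mul_zero]; exact zero_mem _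
    | some σ => exact Submodule.subset_span ⟨⟨(U, b), by simp [hc]⟩, rfl⟩
  obtain ⟨c, hc⟩ := (Finsupp.mem_span_range_iff_exists_finsupp).1 ha'
  by_cases hc0 : c = 0
  · left; simp [← hc, hc0]
  let M := (c.support.sup fun i => i.1.1.length) + 1
  let w := List.replicate M (Sum.inl Letter.pad : D.Lam) ++ [.inr 1]
  let f : ι → List D.Lam := fun i => i.1.1 ++ List.replicate M (Sum.inl Letter.pad) ++
    (pre i.1.2.1 i.1.2.2 ++ [.inr (last i.1.2.1 i.1.2.2 * 1)])
  have hval : ∀ i : ι, R.X i.1.1 * R.val i.1.2 * R.X w = R.X (f i) := by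
    intro i
    obtain ⟨σ, hσ⟩ := Option.isSome_iff_exists.1 i.2
    simp only [w, f, X_append, X_pads, X_single]
    rw [mul_assoc, ← mul_assoc (R.val i.1.2), ((R.commute_val_pad i.1.2).pow_right M).eq,
      mul_assoc (D.x Letter.pad ^ M), R.val_mul_tag hσ, X_append, X_single]
    simp [mul_assoc]
  have hsum : a * R.X w = c.sum fun i r => r • R.X (f i) := by
    rw [← hc, Finsupp.sum, Finset.sum_mul, Finsupp.sum]
    exact Finset.sum_congr rfl fun i _ => by rw [smul_mul_assoc, hval]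
  refine Or.inr ⟨w, ?_, ?_⟩
  · rw [hsum, Finsupp.sum]
    exact sum_mem fun i _ => Submodule.smul_mem _ _ (Submodule.subset_span ⟨_, rfl⟩)
  · rw [hsum]
    refine R.sum_X_ne_zero c f ?_ hc0
    intro i _ j _ e
    have hp : ∀ b : NWord D, (Sum.inl Letter.pad : D.Lam) ∉ pre b.1 b.2 ++ [.inr (last b.1 b.2 * 1)] :=
      fun b => by simp [pad_not_mem_pre]
    obtain ⟨e1, e2⟩ := append_pads_cancel (Nat.succ_pos _) (hp _) (hp _) e
    obtain ⟨e3, e4⟩ := pre_injective e2
    exact Subtype.ext (Prod.ext e1 (Prod.ext e3 e4))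

theorem det_L0 [Nontrivial D.Alg] : ∀ {M : ℕ} {a : D.Alg}, a ∈ R.L0 M → R.Det a
  | 0, a, ha => R.det_base
      ((Submodule.span_le.2 fun _ hm => by
        obtain ⟨U, b, V, h1, h2, h3⟩ := hm
        exact Submodule.subset_span ⟨U, b, V, Or.inl ⟨h1, h2⟩, h3⟩ : R.L0 0 ≤ R.L1 0) ha)
  | M + 1, a, ha => R.det_reduce a fun l => det_L0 (R.L0_succ_mul ha l)

theorem det_A0 [Nontrivial D.Alg] {a : D.Alg} (ha : a ∈ R.A0) : R.Det a := by
  obtain ⟨M, hM⟩ := R.exists_L0 ha
  exact R.det_L0 hM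

theorem det_L1 [Nontrivial D.Alg] : ∀ {M : ℕ} {a : D.Alg}, a ∈ R.L1 M → R.Det a
  | 0, _, ha => R.det_base ha
  | M + 1, a, ha => R.det_reduce a fun l => by
      by_cases hl : Plain l
      · exact det_L1 (R.L1_succ_mul_plain ha hl)
      · exact R.det_A0 (R.L1_mul_special ha hl)

theorem det_L2 [Nontrivial D.Alg] : ∀ {N : ℕ} {a : D.Alg}, a ∈ R.L2 N → R.Det a
  | 0, _, ha => by obtain ⟨M, hM⟩ := R.exists_L1 ha; exact R.det_L1 hM
  | N + 1, a, ha => R.det_reduce a fun l => det_L2 (R.L2_succ_mul ha l)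

/-- The dichotomy. -/
theorem exists_pure_ne_zero [Nontrivial D.Alg] {a : D.Alg} (ha : a ≠ 0) :
    ∃ w, a * R.X w ∈ R.Pure ∧ a * R.X w ≠ 0 := by
  obtain ⟨N, hN⟩ := R.exists_L2 a
  exact (R.det_L2 hN).resolve_left ha

end Vale.Agent.P193.Setup.Derived
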