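import Vale.Agent.P193.Alg.Words

/-!
# Every element is a combination of monomials `X U * val b * Y V`
-/

namespace Vale.Agent.P193.Setup.Derived

open scoped Classical

variable {D : Setup} (R : D.Derived)

/-- Monomials. -/
noncomputable def mono (U : List D.Lam) (b : NWord D) (V : List D.Lam) : D.Alg :=
  R.X U * R.val b * R.Y V

/-- The span of the monomials without operators. -/
noncomputable def A0 : Submodule (ZMod 2) D.Alg :=
  Submodule.span (ZMod 2) {m | ∃ U k V, m = R.X U * R.kk k * R.Y V}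

/-- The span of all monomials. -/
noncomputable def Sp : Submodule (ZMod 2) D.Alg :=
  Submodule.span (ZMod 2) {m | ∃ U b V, m = R.mono U b V}

theorem mono_mem_Sp (U : List D.Lam) (b : NWord D) (V : List D.Lam) : R.mono U b V ∈ R.Sp :=
  Submodule.subset_span ⟨U, b, V, rfl⟩

theorem monoK_mem_A0 (U : List D.Lam) (k : D.K) (V : List D.Lam) :
    R.X U * R.kk k * R.Y V ∈ R.A0 :=
  Submodule.subset_span ⟨U, k, V, rfl⟩

theorem A0_le_Sp : R.A0 ≤ R.Sp := by
  refine Submodule.span_le.2 ?_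
  rintro m ⟨U, k, V, rfl⟩
  exact Submodule.subset_span ⟨U, (k, []), V, by rw [mono, val_nil]⟩

theorem kk_mul_X (j : D.K) (U : List D.Lam) :
    ∃ U' j', R.kk j * R.X U = R.X U' * R.kk j' := by
  induction U generalizing j with
  | nil => exact ⟨[], j, by simp [X_nil]⟩
  | cons l U ih =>
    rcases l with a | k
    · obtain ⟨U', j', e⟩ := ih j
      refine ⟨.inl a :: U', j', ?_⟩
      rw [X_cons, X_cons, ← mul_assoc]
      simp only [lx]
      rw [R.kk_mul_x, mul_assoc, e, mul_assoc]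
    · refine ⟨.inr (j * k) :: U, 1, ?_⟩
      simp [X_cons, lx, mul_assoc]

theorem kk_mul_X_conf (j : D.K) (l : List D.M.C) :
    R.kk j * R.X (l.map fun c => Sum.inl (Letter.conf c)) =
      R.X (l.map fun c => Sum.inl (Letter.conf c)) * R.kk j := by
  induction l with
  | nil => simp [X_nil]
  | cons c l ih =>
    rw [List.map_cons, X_cons, ← mul_assoc]
    simp only [lx]
    rw [R.kk_mul_x, mul_assoc, ih, mul_assoc]

/-- A submodule closed under left multiplication by the letters, their adjoints and the group. -/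
structure LeftClosed (M : Submodule (ZMod 2) D.Alg) : Prop where
  lx : ∀ l, ∀ m ∈ M, R.lx l * m ∈ M
  ly : ∀ l, ∀ m ∈ M, R.ly l * m ∈ M
  kk : ∀ k, ∀ m ∈ M, R.kk k * m ∈ M

variable {R}

theorem LeftClosed.X {M : Submodule (ZMod 2) D.Alg} (h : R.LeftClosed M) (U : List D.Lam) :
    ∀ m ∈ M, R.X U * m ∈ M := by
  induction U with
  | nil => simp [X_nil]
  | cons l U ih =>
    intro m hm
    rw [X_cons, mul_assoc]
    exact h.lx _ _ (ih m hm)

theorem LeftClosed.Y {M : Submodule (ZMod 2) D.Alg} (h : R.LeftClosed M) (V : List D.Lam) :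
    ∀ m ∈ M, R.Y V * m ∈ M := by
  induction V with
  | nil => simp [Y_nil]
  | cons l V ih =>
    intro m hm
    rw [Y_cons, mul_assoc]
    exact ih _ (h.ly _ _ hm)

theorem LeftClosed.A0_mul {M : Submodule (ZMod 2) D.Alg} (h : R.LeftClosed M) {a m : D.Alg}
    (ha : a ∈ R.A0) (hm : m ∈ M) : a * m ∈ M := by
  induction ha using Submodule.span_induction with
  | mem a ha =>
    obtain ⟨U, k, V, rfl⟩ := ha
    rw [mul_assoc, mul_assoc]
    exact h.X U _ (h.kk k _ (h.Y V m hm))
  | zero => simp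
  | add a b _ _ ha hb => rw [add_mul]; exact add_mem ha hb
  | smul c a _ ha => rw [smul_mul_assoc]; exact M.smul_mem c ha

variable (R)

theorem ly_mul_kk (l : D.Lam) (k : D.K) : ∃ l' k', R.ly l * R.kk k = R.kk k' * R.ly l' := by
  rcases l with a | j
  · exact ⟨.inl a, k, R.y_mul_kk k a⟩
  · refine ⟨.inr (k⁻¹ * j), 1, ?_⟩
    simp [ly, mul_assoc]

theorem leftClosed_A0 : R.LeftClosed R.A0 := by
  refine ⟨fun l m hm => ?_, fun l m hm => ?_, fun k m hm => ?_⟩ <;>
    induction hm using Submodule.span_induction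
  all_goals try simp only [mul_zero, zero_mem, mul_add, mul_smul_comm]
  all_goals try (exact add_mem (by assumption) (by assumption))
  all_goals try (exact Submodule.smul_mem _ _ (by assumption))
  · next m hm =>
    obtain ⟨U, k, V, rfl⟩ := hm
    rw [← mul_assoc, ← mul_assoc, ← X_cons]
    exact R.monoK_mem_A0 _ _ _
  · next m hm =>
    obtain ⟨U, k, V, rfl⟩ := hm
    rcases U with _ | ⟨u, U⟩
    · obtain ⟨l', k', e⟩ := R.ly_mul_kk l k
      have hY : R.ly l' * R.Y V = R.Y (V ++ [l']) := by simp [Y]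
      rw [X_nil, one_mul, ← mul_assoc, e, mul_assoc, hY]
      simpa [X_nil] using R.monoK_mem_A0 [] k' (V ++ [l'])
    · rw [X_cons, ← mul_assoc, ← mul_assoc, ← mul_assoc, ly_mul_lx]
      split_ifs
      · rw [one_mul]; exact R.monoK_mem_A0 _ _ _
      · simp
  · next m hm =>
    obtain ⟨U, j, V, rfl⟩ := hm
    obtain ⟨U', j', e⟩ := R.kk_mul_X k U
    rw [← mul_assoc, ← mul_assoc, e, mul_assoc (R.X U'), kk_mul_kk]
    exact R.monoK_mem_A0 _ _ _

theorem A0_mul {a b : D.Alg} (ha : a ∈ R.A0) (hb : b ∈ R.A0) : a * b ∈ R.A0 :=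
  R.leftClosed_A0.A0_mul ha hb

theorem one_mem_A0 : (1 : D.Alg) ∈ R.A0 := by
  simpa [X_nil, Y_nil] using R.monoK_mem_A0 [] 1 []

theorem X_mem_A0 (U : List D.Lam) : R.X U ∈ R.A0 := by
  simpa [Y_nil] using R.monoK_mem_A0 U 1 []

theorem kk_mem_A0 (k : D.K) : R.kk k ∈ R.A0 := by
  simpa [X_nil, Y_nil] using R.monoK_mem_A0 [] k []

theorem ly_mem_A0 (l : D.Lam) : R.ly l ∈ R.A0 := by
  simpa [X_nil, Y_cons, Y_nil] using R.monoK_mem_A0 [] 1 [l]

theorem lx_mem_A0 (l : D.Lam) : R.lx l ∈ R.A0 := by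
  simpa [X_single] using R.X_mem_A0 [l]

theorem x_mem_A0 (a : D.Letter) : D.x a ∈ R.A0 := R.lx_mem_A0 (.inl a)

theorem y_mem_A0 (a : D.Letter) : D.y a ∈ R.A0 := R.ly_mem_A0 (.inl a)

theorem xT_mem_A0 : D.xT ∈ R.A0 := by simpa [lx] using R.lx_mem_A0 (.inr 1)

theorem yT_mem_A0 : D.yT ∈ R.A0 := by simpa [ly] using R.ly_mem_A0 (.inr 1)

theorem p_mem_A0 : D.p ∈ R.A0 := by
  rw [p_eq]
  exact sub_mem R.one_mem_A0 (sum_mem fun a _ => R.A0_mul (R.x_mem_A0 a) (R.y_mem_A0 a))

theorem atom_mem_A0 (t : Atom D.k) : D.atom t ∈ R.A0 := by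
  have hg : ∀ i, D.gg i ∈ R.A0 := fun i => by rw [← R.kk_g]; exact R.kk_mem_A0 _
  cases t with
  | gen i =>
    rw [atom_gen]
    exact add_mem (R.A0_mul (R.x_mem_A0 _) (R.y_mem_A0 _)) (R.A0_mul (R.A0_mul (R.x_mem_A0 _) (hg i)) (R.y_mem_A0 _))
  | row => rw [atom_row]; exact add_mem (R.y_mem_A0 _) (R.y_mem_A0 _)
  | col => rw [atom_col]; exact sub_mem (R.x_mem_A0 _) (R.x_mem_A0 _)
  | yT => rw [atom_yT]; exact R.A0_mul R.yT_mem_A0 (R.y_mem_A0 _)
  | xT => rw [atom_xT]; exact R.A0_mul (R.x_mem_A0 _) R.xT_mem_A0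

theorem final_mem_A0 (q : D.Op) : D.final q ∈ R.A0 := by
  cases q with
  | seed => rw [final_seed]; exact zero_mem _
  | code t => rw [final_code]; exact zero_mem _
  | copy t => rw [final_copy]; exact R.atom_mem_A0 t
  | step s => rw [final_step]; split_ifs; exacts [R.one_mem_A0, zero_mem _]
  | acc s => rw [final_acc]; split_ifs; exacts [R.one_mem_A0, zero_mem _]

/-! ## Plain letters -/

/-- Letters which operators pass on with a nonempty word and no other residual. -/
def Plain : D.Lam → Prop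
  | .inl (.conf _) => True
  | .inl .pad => True
  | .inl (.load _) => True
  | .inl .fuel => True
  | _ => False

theorem val_mul_val (b b' : NWord D) : ∃ b'', R.val b * R.val b' = R.val b'' := by
  obtain ⟨k0, l⟩ := b
  induction l generalizing k0 with
  | nil => exact ⟨(k0 * b'.1, b'.2), by rw [val_nil, kk_mul_val]⟩
  | cons c l ih =>
    obtain ⟨q, k⟩ := c
    obtain ⟨b'', e⟩ := ih k
    refine ⟨(k0 * 1, (q, b''.1) :: b''.2), ?_⟩
    rw [val_cons, mul_assoc, mul_assoc, e, op_mul_val, kk_mul_val]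

theorem ops_eq_val (l : List D.Op) : ∃ b, (l.map D.op).prod = R.val b := by
  induction l with
  | nil => exact ⟨(1, []), by simp [val_nil]⟩
  | cons q l ih =>
    obtain ⟨b, e⟩ := ih
    exact ⟨_, by rw [List.map_cons, List.prod_cons, e, op_mul_val]⟩

/-- The word of a configuration. -/
abbrev cw (l : List D.M.C) : List D.Lam := l.map fun c => Sum.inl (Letter.conf c)

theorem op_mul_confs (l : List D.M.C) (q : D.Op) :
    D.op q * R.X (cw l) = 0 ∨ ∃ l' q', l.length ≤ l'.length ∧
      D.op q * R.X (cw l) = R.X (cw l') * D.op q' := by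
  induction l generalizing q with
  | nil => exact Or.inr ⟨[], q, le_rfl, by simp [X_nil]⟩
  | cons c l ih =>
    have hx : R.X (cw (c :: l)) = D.x (.conf c) * R.X (cw l) := rfl
    rw [hx, ← mul_assoc]
    cases hr : D.confRule q c with
    | none => left; rw [op_mul_conf_none hr, zero_mul]
    | some r =>
      rw [op_mul_conf hr, mul_assoc]
      rcases ih r.2 with e | ⟨l', q', hl, e⟩
      · left; rw [e, mul_zero]
      · refine Or.inr ⟨r.1.1 :: r.1.2 ++ l', q', by simp; omega, ?_⟩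
        rw [e, ← mul_assoc]
        simp only [cw, List.map_append, X_append]
        congr 2
        simp [X, lx, List.map_map, Function.comp_def]

theorem val_mul_confs (b : NWord D) (l : List D.M.C) :
    R.val b * R.X (cw l) = 0 ∨ ∃ l' b', l.length ≤ l'.length ∧
      R.val b * R.X (cw l) = R.X (cw l') * R.val b' := by
  obtain ⟨k0, bl⟩ := b
  induction bl generalizing k0 with
  | nil => exact Or.inr ⟨l, (k0, []), le_rfl, by rw [val_nil, kk_mul_X_conf]⟩
  | cons c bl ih =>
    obtain ⟨q, k⟩ := c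
    rw [val_cons, mul_assoc, mul_assoc]
    rcases ih k with e | ⟨l', b', hl, e⟩
    · left; rw [e, mul_zero, mul_zero]
    rw [e, ← mul_assoc (D.op q)]
    rcases R.op_mul_confs l' q with e' | ⟨l'', q', hl', e'⟩
    · left; rw [e', zero_mul, mul_zero]
    · refine Or.inr ⟨l'', (k0 * 1, (q', b'.1) :: b'.2), hl.trans hl', ?_⟩
      rw [e', mul_assoc, op_mul_val, ← mul_assoc, kk_mul_X_conf, mul_assoc, kk_mul_val]

theorem val_mul_pass {a : D.Letter} {f : D.Op → List D.Op}
    (h : ∀ q, D.op q * D.x a = D.x a * ((f q).map D.op).prod) (b : NWord D) :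
    ∃ b', R.val b * D.x a = D.x a * R.val b' := by
  obtain ⟨k0, l⟩ := b
  induction l generalizing k0 with
  | nil => exact ⟨(k0, []), by rw [val_nil, R.kk_mul_x]⟩
  | cons c l ih =>
    obtain ⟨q, k⟩ := c
    obtain ⟨b', e⟩ := ih k
    obtain ⟨b'', e'⟩ := R.ops_eq_val (f q)
    obtain ⟨b3, e3⟩ := R.val_mul_val b'' b'
    refine ⟨(k0 * b3.1, b3.2), ?_⟩
    rw [val_cons, mul_assoc, mul_assoc, e, ← mul_assoc (D.op q), h, e', mul_assoc, e3,
      ← mul_assoc, R.kk_mul_x, mul_assoc, kk_mul_val]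

theorem val_mul_plain {l : D.Lam} (hl : Plain l) (b : NWord D) :
    R.val b * R.lx l = 0 ∨ ∃ u b', u ≠ [] ∧ R.val b * R.lx l = R.X u * R.val b' := by
  rcases l with a | k
  · cases a with
    | conf c =>
      have hx : R.lx (.inl (.conf c)) = R.X (cw [c]) := by simp [X, lx]
      rw [hx]
      rcases R.val_mul_confs b [c] with e | ⟨l', b', hle, e⟩
      · exact Or.inl e
      · refine Or.inr ⟨_, b', ?_, e⟩
        intro h
        simp at h
        simp [h] at hle
    | pad =>
      obtain ⟨b', e⟩ := R.val_mul_pass (f := fun q => [q]) (fun q => by simpa using op_mul_pad q) b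
      exact Or.inr ⟨[.inl .pad], b', by simp, by rw [X_single]; exact e⟩
    | load t =>
      obtain ⟨b', e⟩ := R.val_mul_pass (f := D.loadRule t) (fun q => op_mul_load q t) b
      exact Or.inr ⟨[.inl (.load t)], b', by simp, by rw [X_single]; exact e⟩
    | fuel =>
      obtain ⟨b', e⟩ := R.val_mul_pass (f := D.fuelRule) op_mul_fuel b
      exact Or.inr ⟨[.inl .fuel], b', by simp, by rw [X_single]; exact e⟩
    | _ => exact hl.elim
  · exact hl.elim

/-! ## The other letters -/

theorem val_mul_z (b : NWord D) : ∃ e ∈ R.A0, R.val b * D.x .z = D.x .z * e := by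
  obtain ⟨k0, l⟩ := b
  induction l generalizing k0 with
  | nil => exact ⟨_, R.kk_mem_A0 k0, by rw [val_nil, R.kk_mul_x]⟩
  | cons c l ih =>
    obtain ⟨q, k⟩ := c
    obtain ⟨e, he, h⟩ := ih k
    refine ⟨R.kk k0 * (D.final q * e), R.A0_mul (R.kk_mem_A0 _) (R.A0_mul (R.final_mem_A0 q) he), ?_⟩
    rw [val_cons, mul_assoc, mul_assoc, h, ← mul_assoc (D.op q), op_mul_z, mul_assoc,
      ← mul_assoc, R.kk_mul_x, mul_assoc]

theorem val_mul_go (k0 : D.K) (q : D.Op) (k : D.K) (l : List (D.Op × D.K)) :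
    R.val (k0, (q, k) :: l) * D.x .go = 0 ∨ ∃ cl, ∃ e ∈ R.A0,
      R.val (k0, (q, k) :: l) * D.x .go = R.X (cw cl) * (D.x .z * e) := by
  induction l generalizing k0 q k with
  | nil =>
    rw [val_cons, val_nil, mul_assoc, mul_assoc, R.kk_mul_x, ← mul_assoc (D.op q)]
    by_cases hq : q = .seed
    · subst hq
      refine Or.inr ⟨[D.M.lb, D.M.rb], R.kk k0 * R.kk k,
        R.A0_mul (R.kk_mem_A0 _) (R.kk_mem_A0 _), ?_⟩
      rw [seed_mul_go]
      simp [X, lx, mul_assoc]
      simp only [← mul_assoc, R.kk_mul_x]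
      simp only [mul_assoc]
      rw [← mul_assoc (R.kk k0) (D.x (Letter.conf D.M.rb)), R.kk_mul_x, mul_assoc,
        ← mul_assoc (R.kk k0) (D.x Letter.z), R.kk_mul_x, mul_assoc]
    · left; rw [op_mul_go hq, zero_mul, mul_zero]
  | cons c l ih =>
    obtain ⟨q', k'⟩ := c
    rw [val_cons, mul_assoc, mul_assoc]
    rcases ih k q' k' with e | ⟨cl, e, he, h⟩
    · left; rw [e, mul_zero, mul_zero]
    rw [h, ← mul_assoc (D.op q)]
    rcases R.op_mul_confs cl q with e' | ⟨cl', q'', -, e'⟩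
    · left; rw [e', zero_mul, mul_zero]
    · refine Or.inr ⟨cl', R.kk k0 * (D.final q'' * e),
        R.A0_mul (R.kk_mem_A0 _) (R.A0_mul (R.final_mem_A0 _) he), ?_⟩
      rw [e', mul_assoc (R.X _), ← mul_assoc (D.op q''), op_mul_z, mul_assoc (D.x .z),
        ← mul_assoc, kk_mul_X_conf, mul_assoc, ← mul_assoc (R.kk k0), R.kk_mul_x, mul_assoc]

/-- Combinations of elements that begin with a coloured tag. -/
noncomputable def Tagged : Submodule (ZMod 2) D.Alg :=
  Submodule.span (ZMod 2)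
    {m | ∃ τ k, ∃ e ∈ R.A0, m = D.x (.colour τ) * R.lx (.inr k) * e}

theorem Tagged_le_A0 : R.Tagged ≤ R.A0 := by
  refine Submodule.span_le.2 ?_
  rintro m ⟨τ, k, e, he, rfl⟩
  exact R.A0_mul (R.A0_mul (R.x_mem_A0 _) (R.lx_mem_A0 _)) he

theorem write_mul_mem_Tagged (q : D.Op) (σ : Colour) {e : D.Alg} (he : e ∈ R.A0) :
    D.write q σ * e ∈ R.Tagged := by
  cases h : D.colourRule q σ with
  | none => rw [write_none h, zero_mul]; exact zero_mem _
  | some τ =>
    refine Submodule.subset_span ⟨τ, 1, D.x (.tok q) * e, R.A0_mul (R.x_mem_A0 _) he, ?_⟩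
    rw [write_some h]
    simp [lx, mul_assoc]

theorem op_mul_Tagged (q : D.Op) {m : D.Alg} (hm : m ∈ R.Tagged) : D.op q * m ∈ R.Tagged := by
  induction hm using Submodule.span_induction with
  | mem m hm =>
    obtain ⟨τ, k, e, he, rfl⟩ := hm
    rw [← mul_assoc, R.op_mul_colour_tag, mul_assoc]
    exact R.write_mul_mem_Tagged q _ (R.A0_mul (R.A0_mul (R.x_mem_A0 _) (R.lx_mem_A0 _)) he)
  | zero => simp
  | add a b _ _ ha hb => rw [mul_add]; exact add_mem ha hb
  | smul c a _ ha => rw [mul_smul_comm]; exact Submodule.smul_mem _ c ha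

theorem kk_mul_Tagged (j : D.K) {m : D.Alg} (hm : m ∈ R.Tagged) : R.kk j * m ∈ R.Tagged := by
  induction hm using Submodule.span_induction with
  | mem m hm =>
    obtain ⟨τ, k, e, he, rfl⟩ := hm
    refine Submodule.subset_span ⟨τ, j * k, e, he, ?_⟩
    simp only [lx, map_mul, ← mul_assoc, R.kk_mul_x]
  | zero => simp
  | add a b _ _ ha hb => rw [mul_add]; exact add_mem ha hb
  | smul c a _ ha => rw [mul_smul_comm]; exact Submodule.smul_mem _ c ha

theorem val_mul_colour (σ : Colour) (k0 : D.K) (q : D.Op) (k : D.K) (l : List (D.Op × D.K)) :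
    R.val (k0, (q, k) :: l) * D.x (.colour σ) ∈ R.Tagged := by
  induction l generalizing k0 q k with
  | nil =>
    rw [val_cons, val_nil, mul_assoc, mul_assoc, R.kk_mul_x, ← mul_assoc (D.op q), op_mul_colour]
    refine R.kk_mul_Tagged _ ?_
    rw [add_mul, mul_assoc, mul_assoc, mul_assoc, mul_assoc]
    exact add_mem
      (R.write_mul_mem_Tagged q _ (R.A0_mul (R.x_mem_A0 _) (R.A0_mul
        (sub_mem R.p_mem_A0 (R.A0_mul R.xT_mem_A0 R.yT_mem_A0)) (R.kk_mem_A0 _))))
      (R.write_mul_mem_Tagged q _ (R.A0_mul (R.x_mem_A0 _) (R.A0_mul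
        (R.A0_mul R.xT_mem_A0 R.yT_mem_A0) (R.kk_mem_A0 _))))
  | cons c l ih =>
    obtain ⟨q', k'⟩ := c
    rw [val_cons, mul_assoc, mul_assoc]
    exact R.kk_mul_Tagged _ (R.op_mul_Tagged q (ih k q' k'))

theorem val_mul_kill {a : D.Letter} (h : ∀ q, D.op q * D.x a = 0) (k0 : D.K) (q : D.Op) (k : D.K)
    (l : List (D.Op × D.K)) : R.val (k0, (q, k) :: l) * D.x a = 0 := by
  induction l generalizing k0 q k with
  | nil => rw [val_cons, val_nil, mul_assoc, mul_assoc, R.kk_mul_x, ← mul_assoc (D.op q), h, zero_mul, mul_zero]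
  | cons c l ih =>
    obtain ⟨q', k'⟩ := c
    rw [val_cons, mul_assoc, mul_assoc, ih, mul_zero, mul_zero]

theorem val_mul_p_mem (b : NWord D) : R.val b * D.p ∈ R.A0 := by
  cases h : colourOf b.2 with
  | none => rw [R.val_eq_zero h, zero_mul]; exact zero_mem _
  | some σ =>
    rw [R.val_mul_p h]
    exact R.A0_mul (R.A0_mul (R.X_mem_A0 _) (R.kk_mem_A0 _)) R.p_mem_A0

theorem val_mul_special {l : D.Lam} (hl : ¬ Plain l) (b : NWord D) : R.val b * R.lx l ∈ R.A0 := by
  obtain ⟨k0, bl⟩ := b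
  rcases bl with _ | ⟨⟨q, k⟩, bl⟩
  · rw [val_nil]; exact R.A0_mul (R.kk_mem_A0 _) (R.lx_mem_A0 _)
  rcases l with a | j
  · simp only [lx]
    cases a with
    | z =>
      obtain ⟨e, he, h⟩ := R.val_mul_z (k0, (q, k) :: bl)
      rw [h]; exact R.A0_mul (R.x_mem_A0 _) he
    | go =>
      rcases R.val_mul_go k0 q k bl with h | ⟨cl, e, he, h⟩
      · rw [h]; exact zero_mem _
      · rw [h]; exact R.A0_mul (R.X_mem_A0 _) (R.A0_mul (R.x_mem_A0 _) he)
    | colour σ => exact R.Tagged_le_A0 (R.val_mul_colour σ k0 q k bl)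
    | tok r => rw [R.val_mul_kill (fun p => op_mul_tok p r)]; exact zero_mem _
    | b0 => rw [R.val_mul_kill op_mul_b0]; exact zero_mem _
    | b1 => rw [R.val_mul_kill op_mul_b1]; exact zero_mem _
    | _ => exact absurd trivial hl
  · rw [← R.p_mul_tag, ← mul_assoc]
    exact R.A0_mul (R.val_mul_p_mem _) (R.lx_mem_A0 _)

/-! ## The span is everything -/

theorem ly_mul_val (l : D.Lam) (b : NWord D) : R.ly l * R.val b ∈ R.Sp := by
  have e : R.ly l * R.val b =
      (∑ a, R.ly l * (R.val b * R.lx (.inl a)) * D.y a) + R.ly l * (R.val b * D.p) := by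
    conv_lhs => rw [← mul_one (R.val b), one_eq, mul_add, mul_add, Finset.mul_sum, Finset.mul_sum]
    simp [lx, mul_assoc]
  rw [e]
  refine add_mem (sum_mem fun a _ => ?_)
    (R.A0_le_Sp (R.A0_mul (R.ly_mem_A0 l) (R.val_mul_p_mem b)))
  by_cases ha : Plain (Sum.inl a : D.Lam)
  · rcases R.val_mul_plain ha b with h | ⟨u, b', hu, h⟩
    · simp [h]
    · obtain ⟨u0, u', rfl⟩ := List.exists_cons_of_ne_nil hu
      rw [h, X_cons, ← mul_assoc, ← mul_assoc, ly_mul_lx]
      split_ifs
      · rw [one_mul]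
        exact Submodule.subset_span ⟨u', b', [.inl a], by simp [mono, Y_cons, Y_nil, ly]⟩
      · simp
  · exact R.A0_le_Sp (R.A0_mul (R.A0_mul (R.ly_mem_A0 l) (R.val_mul_special ha b)) (R.y_mem_A0 a))

theorem Sp_mul_Y {m : D.Alg} (hm : m ∈ R.Sp) (V : List D.Lam) : m * R.Y V ∈ R.Sp := by
  induction hm using Submodule.span_induction with
  | mem m hm =>
    obtain ⟨U, b, V', rfl⟩ := hm
    refine Submodule.subset_span ⟨U, b, V ++ V', ?_⟩
    simp [mono, Y_append, mul_assoc]
  | zero => simp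
  | add a b _ _ ha hb => rw [add_mul]; exact add_mem ha hb
  | smul c a _ ha => rw [smul_mul_assoc]; exact Submodule.smul_mem _ c ha

theorem leftClosed_Sp : R.LeftClosed R.Sp := by
  refine ⟨fun l m hm => ?_, fun l m hm => ?_, fun k m hm => ?_⟩ <;>
    induction hm using Submodule.span_induction
  all_goals try simp only [mul_zero, zero_mem, mul_add, mul_smul_comm]
  all_goals try (exact add_mem (by assumption) (by assumption))
  all_goals try (exact Submodule.smul_mem _ _ (by assumption))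
  · next m hm =>
    obtain ⟨U, b, V, rfl⟩ := hm
    rw [mono, ← mul_assoc, ← mul_assoc, ← X_cons]
    exact R.mono_mem_Sp _ _ _
  · next m hm =>
    obtain ⟨U, b, V, rfl⟩ := hm
    rcases U with _ | ⟨u, U⟩
    · rw [mono, X_nil, one_mul, ← mul_assoc]
      exact R.Sp_mul_Y (R.ly_mul_val l b) V
    · rw [mono, X_cons, ← mul_assoc, ← mul_assoc, ← mul_assoc, ly_mul_lx]
      split_ifs
      · rw [one_mul]; exact R.mono_mem_Sp _ _ _
      · simp
  · next m hm =>
    obtain ⟨U, b, V, rfl⟩ := hm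
    obtain ⟨U', j, e⟩ := R.kk_mul_X k U
    rw [mono, ← mul_assoc, ← mul_assoc, e, mul_assoc (R.X U'), kk_mul_val]
    exact R.mono_mem_Sp _ _ _

theorem val_mul_mono (U : List D.Lam) (b b' : NWord D) (V : List D.Lam) :
    R.val b * R.mono U b' V ∈ R.Sp := by
  induction U generalizing b with
  | nil =>
    obtain ⟨b'', e⟩ := R.val_mul_val b b'
    rw [mono, X_nil, one_mul, ← mul_assoc, e]
    simpa [mono, X_nil] using R.mono_mem_Sp [] b'' V
  | cons l U ih =>
    have e : R.val b * R.mono (l :: U) b' V = R.val b * R.lx l * R.mono U b' V := by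
      simp [mono, X_cons, mul_assoc]
    rw [e]
    by_cases hl : Plain l
    · rcases R.val_mul_plain hl b with h | ⟨u, b'', -, h⟩
      · simp [h]
      · rw [h, mul_assoc]
        exact R.leftClosed_Sp.X u _ (ih b'')
    · exact R.leftClosed_Sp.A0_mul (R.val_mul_special hl b) (R.mono_mem_Sp _ _ _)

theorem op_mul_Sp (q : D.Op) {m : D.Alg} (hm : m ∈ R.Sp) : D.op q * m ∈ R.Sp := by
  induction hm using Submodule.span_induction with
  | mem m hm =>
    obtain ⟨U, b, V, rfl⟩ := hm
    rw [R.op_eq_val]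
    exact R.val_mul_mono _ _ _ _
  | zero => simp
  | add a b _ _ ha hb => rw [mul_add]; exact add_mem ha hb
  | smul c a _ ha => rw [mul_smul_comm]; exact Submodule.smul_mem _ c ha

theorem quot_surjective : Function.Surjective D.quot := RingQuot.mkAlgHom_surjective (ZMod 2) D.Rel

theorem quot_mul_Sp (f : D.Free) : ∀ m ∈ R.Sp, D.quot f * m ∈ R.Sp := by
  induction f using FreeAlgebra.induction with
  | grade0 c =>
    intro m hm
    rw [AlgHom.commutes, ← Algebra.smul_def]
    exact R.Sp.smul_mem c hm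
  | grade1 g =>
    intro m hm
    cases g with
    | x l =>
      cases l with
      | some a => exact R.leftClosed_Sp.lx (.inl a) m hm
      | none =>
        have h := R.leftClosed_Sp.lx (.inr 1) m hm
        simp only [lx, map_one, one_mul] at h
        exact h
    | y l =>
      cases l with
      | some a => exact R.leftClosed_Sp.ly (.inl a) m hm
      | none =>
        have h := R.leftClosed_Sp.ly (.inr 1) m hm
        simp only [ly, inv_one, map_one, mul_one] at h
        exact h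
    | g i =>
      have h := R.leftClosed_Sp.kk (D.g i) m hm
      rw [R.kk_g] at h
      exact h
    | op q => exact R.op_mul_Sp q hm
  | add a b ha hb => intro m hm; rw [map_add, add_mul]; exact add_mem (ha m hm) (hb m hm)
  | mul a b ha hb => intro m hm; rw [map_mul, mul_assoc]; exact ha _ (hb m hm)

theorem mem_Sp (a : D.Alg) : a ∈ R.Sp := by
  obtain ⟨f, rfl⟩ := quot_surjective a
  have h := R.quot_mul_Sp f 1 (R.A0_le_Sp R.one_mem_A0)
  rwa [mul_one] at h

end Vale.Agent.P193.Setup.Derived
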