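import Vale.Agent.P193.Alg.Defs

/-!
# A nonzero representation of the algebra

`D.Alg` acts on the vector space with basis the finite lists over `D.Letter ⊕ D.K`: `x` prepends, `y` strips,
`g i` passes the letters and translates the first entry from `K`, and an operator is given by recursion on
the list through its column rules. The compressing relation holds by induction on the list.
-/

namespace Vale.Agent.P193.Setup

namespace Repr

open scoped Classical

variable {D : Setup}

/-- Entries of basis lists. -/
abbrev Sym (D : Setup) := D.Letter ⊕ D.K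

/-- The space of the representation. -/
abbrev V (D : Setup) := List (Sym D) →₀ ZMod 2

/-- Endomorphisms. -/
abbrev EndV (D : Setup) := Module.End (ZMod 2) (V D)

/-- A basis vector. -/
noncomputable def e (l : List (Sym D)) : V D := Finsupp.single l 1

/-- The linear extension of a map on basis lists. -/
noncomputable def lmap (f : List (Sym D) → V D) : EndV D := Finsupp.linearCombination (ZMod 2) f

@[simp] theorem lmap_e (f : List (Sym D) → V D) (l : List (Sym D)) : lmap f (e l) = f l := by
  simp [lmap, e]

theorem end_ext {f g : EndV D} (h : ∀ l, f (e l) = g (e l)) : f = g :=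
  Finsupp.lhom_ext' fun l => LinearMap.ext_ring (h l)

/-- Prepend a word. -/
noncomputable def pre (w : List (Sym D)) : EndV D := lmap fun l => e (w ++ l)

@[simp] theorem pre_e (w l : List (Sym D)) : pre w (e l) = e (w ++ l) := lmap_e _ _

theorem pre_mul (w u : List (Sym D)) : pre w * pre u = pre (w ++ u) :=
  end_ext fun l => by simp [List.append_assoc]

theorem pre_pre (w u : List (Sym D)) (v : V D) : pre w (pre u v) = pre (w ++ u) v :=
  congrArg (fun f : EndV D => f v) (pre_mul w u)

theorem pre_nil : pre ([] : List (Sym D)) = 1 := end_ext fun l => by simp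

theorem prod_map_pre {α : Type*} (f : α → Sym D) (L : List α) :
    (L.map fun d => pre [f d]).prod = pre (L.map f) := by
  induction L with
  | nil => simp [pre_nil]
  | cons a L ih => simp [ih, pre_mul]

/-- Strip a first entry. -/
noncomputable def strip (s : Sym D) : EndV D :=
  lmap fun l => match l with
    | [] => 0
    | a :: r => if a = s then e r else 0

theorem strip_mul_pre (s a : Sym D) : strip s * pre [a] = if a = s then 1 else 0 :=
  end_ext fun l => by
    by_cases h : a = s <;> simp [strip, h]

/-- Translate the first entry from `K`. -/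
def shift (k : D.K) : List (Sym D) → List (Sym D)
  | [] => []
  | .inl a :: l => .inl a :: shift k l
  | .inr h :: l => .inr (k * h) :: l

theorem shift_one : ∀ l : List (Sym D), shift 1 l = l
  | [] => rfl
  | .inl a :: l => by rw [shift, shift_one]
  | .inr h :: l => by rw [shift, one_mul]

theorem shift_mul (k k' : D.K) : ∀ l : List (Sym D), shift (k * k') l = shift k (shift k' l)
  | [] => rfl
  | .inl a :: l => by simp only [shift, shift_mul k k' l]
  | .inr h :: l => by simp only [shift, mul_assoc]

/-- The action of `K`. -/
noncomputable def act (D : Setup) : D.K →* EndV D where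
  toFun k := lmap fun l => e (shift k l)
  map_one' := end_ext fun l => by simp [shift_one]
  map_mul' k k' := end_ext fun l => by simp [shift_mul]

@[simp] theorem act_e (k : D.K) (l : List (Sym D)) : act D k (e l) = e (shift k l) := lmap_e _ _

theorem act_mul_pre_inl (k : D.K) (a : D.Letter) :
    act D k * pre [.inl a] = pre [.inl a] * act D k :=
  end_ext fun l => by simp [shift]

theorem act_mul_pre_inr (k h : D.K) : act D k * pre [.inr h] = pre [.inr (k * h)] :=
  end_ext fun l => by simp [shift]

theorem strip_mul_act (k : D.K) (a : D.Letter) :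
    strip (.inl a) * act D k = act D k * strip (.inl a) := by
  refine end_ext fun l => ?_
  rcases l with _ | ⟨b | h, l⟩
  · simp [strip, shift]
  · by_cases hb : b = a <;> simp [strip, shift, hb]
  · simp [strip, shift]

/-- The entry of a letter or of the tag. -/
def key : Option D.Letter → Sym D
  | some a => .inl a
  | none => .inr 1

theorem key_injective : Function.Injective (key (D := D)) := by
  rintro (_ | a) (_ | b) h <;> simp_all [key]

/-- The generators other than operators. -/
noncomputable def gen0 : D.Gen → EndV D
  | .x l => pre [key l]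
  | .y l => strip (key l)
  | .g i => act D (D.g i)
  | .op _ => 0

/-- The representation without operators. -/
noncomputable def rho0 (D : Setup) : D.Free →ₐ[ZMod 2] EndV D := FreeAlgebra.lift (ZMod 2) gen0

@[simp] theorem rho0_fx (a : D.Letter) : rho0 D (D.fx a) = pre [.inl a] := by
  simp [rho0, fx, gen0, key]

@[simp] theorem rho0_fy (a : D.Letter) : rho0 D (D.fy a) = strip (.inl a) := by
  simp [rho0, fy, gen0, key]

@[simp] theorem rho0_fxT : rho0 D D.fxT = pre [.inr 1] := by simp [rho0, fxT, gen0, key]

@[simp] theorem rho0_fyT : rho0 D D.fyT = strip (.inr 1) := by simp [rho0, fyT, gen0, key]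

@[simp] theorem rho0_fg (i : Fin D.k) : rho0 D (D.fg i) = act D (D.g i) := by
  simp [rho0, fg, gen0]

theorem rho0_fp_e (l : List (Sym D)) :
    rho0 D D.fp (e l) = match l with
      | .inl _ :: _ => 0
      | l => e l := by
  simp only [fp, map_sub, map_one, map_sum, map_mul, rho0_fx, rho0_fy, LinearMap.sub_apply,
    Module.End.one_apply, LinearMap.sum_apply, Module.End.mul_apply]
  rcases l with _ | ⟨b | h, l⟩
  · simp [strip]
  · rw [Finset.sum_eq_single b]
    · simp [strip]
    · intro c _ hc
      simp [strip, Ne.symm hc]
    · simp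
  · simp [strip]

theorem rho0_tagProj_e (l : List (Sym D)) :
    rho0 D (D.fxT * D.fyT) (e l) = match l with
      | [] => 0
      | a :: _ => if a = .inr 1 then e l else 0 := by
  rcases l with _ | ⟨a, l⟩
  · simp [strip]
  · by_cases h : a = .inr 1 <;> simp [strip, h]

/-! ## The operators -/

/-- An operator applied to a list starting with a letter, from the images `T` of the rest. -/
noncomputable def colOp (q : D.Op) (a : D.Letter) (l : List (Sym D)) (T : List D.Op → V D) : V D :=
  match a with
  | .conf c =>
    match D.confRule q c with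
    | none => 0
    | some r => pre ((r.1.1 :: r.1.2).map fun d => .inl (.conf d)) (T [r.2])
  | .pad => pre [.inl .pad] (T [q])
  | .load t => pre [.inl (.load t)] (T (D.loadRule t q))
  | .fuel => pre [.inl .fuel] (T (D.fuelRule q))
  | a => rho0 D (D.fcolumn q a) (e l)

/-- The operator lists evaluated by `colOp`. -/
def used (q : D.Op) : D.Letter → List (List D.Op)
  | .conf c =>
    match D.confRule q c with
    | none => []
    | some r => [[r.2]]
  | .pad => [[q]]
  | .load t => [D.loadRule t q]
  | .fuel => [D.fuelRule q]
  | _ => []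

theorem colOp_congr {q : D.Op} {a : D.Letter} (l : List (Sym D)) {T T' : List D.Op → V D}
    (h : ∀ ops ∈ used q a, T ops = T' ops) : colOp q a l T = colOp q a l T' := by
  cases a with
  | conf c =>
    cases hc : D.confRule q c with
    | none => simp [colOp, hc]
    | some r =>
      simp only [colOp, hc]
      rw [h [r.2] (by simp [used, hc])]
  | pad => simp only [colOp]; rw [h _ (List.mem_singleton_self _)]
  | load t => simp only [colOp]; rw [h _ (List.mem_singleton_self _)]
  | fuel => simp only [colOp]; rw [h _ (List.mem_singleton_self _)]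
  | _ => rfl

/-- The images of the rest of a list: one operator at the same level, the outer one of two at the
previous level. -/
noncomputable def next (prev : List (Sym D) → D.Op → V D) (same : D.Op → V D) : List D.Op → V D
  | [r] => same r
  | [r, u] => lmap (fun l => prev l r) (same u)
  | _ => 0

/-- One level of the recursion. -/
noncomputable def level (prev : List (Sym D) → D.Op → V D) : List (Sym D) → D.Op → V D
  | .inl a :: l => fun q => colOp q a l (next prev (level prev l))
  | l => fun q => rho0 D (D.fwrite q .plain) (e l)

/-- The levels. -/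
noncomputable def lev : ℕ → List (Sym D) → D.Op → V D
  | 0 => level fun _ _ => 0
  | n + 1 => level (lev n)

/-- The level below. -/
noncomputable def below : ℕ → List (Sym D) → D.Op → V D
  | 0 => fun _ _ => 0
  | n + 1 => lev n

theorem lev_inl (n : ℕ) (a : D.Letter) (l : List (Sym D)) (q : D.Op) :
    lev n (.inl a :: l) q = colOp q a l (next (below n) (lev n l)) := by
  cases n <;> rfl

theorem lev_tag (n : ℕ) (q : D.Op) {l : List (Sym D)} (hl : ∀ a r, l ≠ .inl a :: r) :
    lev n l q = rho0 D (D.fwrite q .plain) (e l) := by
  rcases l with _ | ⟨a | h, l⟩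
  · cases n <;> rfl
  · exact absurd rfl (hl a l)
  · cases n <;> rfl

/-- The number of `fuel` letters. -/
def fuels : List (Sym D) → ℕ
  | [] => 0
  | .inl .fuel :: l => fuels l + 1
  | _ :: l => fuels l

theorem fuels_append : ∀ w l : List (Sym D), fuels (w ++ l) = fuels w + fuels l
  | [], l => by simp [fuels]
  | a :: w, l => by
    rcases a with a | h
    · cases a <;> simp [fuels, fuels_append w l, add_right_comm]
    · simp [fuels, fuels_append w l]

/-- The level from which an operator is constant. -/
def need (l : List (Sym D)) : D.Op → ℕ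
  | .seed => 1
  | .acc _ => fuels l
  | _ => 0

theorem used_cases {q : D.Op} {a : D.Letter} {ops : List D.Op} (h : ops ∈ used q a) :
    (∃ r, ops = [r] ∧ ∀ l, need l r ≤ need (.inl a :: l) q) ∨
      (∃ t, q = .seed ∧ ops = [.code t, .seed]) ∨
      (a = .fuel ∧ q = D.head ∧ ops = [D.head, D.stepOp]) := by
  cases a with
  | conf c =>
    cases hc : D.confRule q c with
    | none => simp [used, hc] at h
    | some r =>
      simp only [used, hc, List.mem_singleton] at h
      refine Or.inl ⟨r.2, h, fun l => ?_⟩
      cases q with
      | seed => simp [confRule] at hc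
      | code t =>
        simp only [confRule] at hc
        split at hc
        · cases hc; simp [need]
        · simp at hc
      | copy t => simp only [confRule] at hc; cases hc; simp [need]
      | step s =>
        simp only [confRule, Option.map_eq_some_iff] at hc
        obtain ⟨r', -, rfl⟩ := hc; simp [need]
      | acc s =>
        simp only [confRule, Option.map_eq_some_iff] at hc
        obtain ⟨r', -, rfl⟩ := hc; simp [need, fuels]
  | pad =>
    simp only [used, List.mem_singleton] at h
    exact Or.inl ⟨q, h, fun l => by cases q <;> simp [need, fuels]⟩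
  | load t =>
    simp only [used, List.mem_singleton, loadRule] at h
    split at h
    · exact Or.inr (Or.inl ⟨t, by assumption, h⟩)
    · exact Or.inl ⟨q, h, fun l => by cases q <;> simp [need, fuels]⟩
  | fuel =>
    simp only [used, List.mem_singleton, fuelRule] at h
    split at h
    · rename_i hq
      exact Or.inr (Or.inr ⟨rfl, hq, by rw [h, hq]⟩)
    · exact Or.inl ⟨q, h, fun l => by cases q <;> simp [need, fuels]⟩
  | _ => simp [used] at h

/-- Vectors supported on lists with `n` fuel letters. -/
noncomputable def fuelPart (D : Setup) (n : ℕ) : Submodule (ZMod 2) (V D) :=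
  Finsupp.supported (ZMod 2) (ZMod 2) {l | fuels l = n}

theorem e_mem {l : List (Sym D)} {n : ℕ} (h : fuels l = n) : e l ∈ fuelPart D n :=
  Finsupp.single_mem_supported (ZMod 2) _ h

theorem lmap_mem {f : List (Sym D) → V D} {n : ℕ} {v : V D} {S : Submodule (ZMod 2) (V D)}
    (hv : v ∈ fuelPart D n) (hf : ∀ l, fuels l = n → f l ∈ S) : lmap f v ∈ S := by
  rw [lmap, Finsupp.linearCombination_apply]
  exact S.sum_mem fun l hl => S.smul_mem _ (hf l (hv hl))

theorem lmap_congr {f g : List (Sym D) → V D} {n : ℕ} {v : V D} (hv : v ∈ fuelPart D n)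
    (h : ∀ l, fuels l = n → f l = g l) : lmap f v = lmap g v := by
  simp only [lmap, Finsupp.linearCombination_apply]
  refine Finset.sum_congr rfl fun l hl => ?_
  dsimp only
  rw [h l (hv hl)]

theorem pre_mem {w : List (Sym D)} {n : ℕ} {v : V D} (hv : v ∈ fuelPart D n) :
    pre w v ∈ fuelPart D (fuels w + n) :=
  lmap_mem hv fun l hl => e_mem (by rw [fuels_append, hl])

theorem fwrite_mem (q : D.Op) (σ : Colour) {n : ℕ} {v : V D} (hv : v ∈ fuelPart D n) :
    rho0 D (D.fwrite q σ) v ∈ fuelPart D n := by
  cases hc : D.colourRule q σ with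
  | none => simp [fwrite, hc]
  | some τ =>
    simp only [fwrite, hc, map_mul, rho0_fx, rho0_fxT, pre_mul]
    simpa [fuels] using pre_mem (w := [.inl (.colour τ), .inr 1, .inl (.tok q)]) hv

theorem proj_mem (l : List (Sym D)) :
    rho0 D D.fp (e l) ∈ fuelPart D (fuels l) ∧
      rho0 D (D.fxT * D.fyT) (e l) ∈ fuelPart D (fuels l) := by
  rw [rho0_fp_e, rho0_tagProj_e]
  rcases l with _ | ⟨a | h, r⟩
  · exact ⟨e_mem rfl, Submodule.zero_mem _⟩
  · exact ⟨Submodule.zero_mem _, by dsimp only; split_ifs <;> simp [e_mem]⟩
  · exact ⟨e_mem rfl, by dsimp only; split_ifs <;> simp [e_mem]⟩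

theorem lev_step_mem (n : ℕ) : ∀ (l : List (Sym D)) (s : D.M.step.State),
    lev n l (.step s) ∈ fuelPart D (fuels l) := by
  intro l
  induction l with
  | nil => intro s; rw [lev_tag n _ (by simp)]; exact fwrite_mem _ _ (e_mem rfl)
  | cons a l ih =>
    intro s
    rcases a with a | h
    swap
    · rw [lev_tag n _ (by simp)]; exact fwrite_mem _ _ (e_mem rfl)
    rw [lev_inl]
    cases a with
    | conf c =>
      cases hc : D.confRule (.step s) c with
      | none => simp [colOp, hc]
      | some r =>
        obtain ⟨r', -, rfl⟩ : ∃ r', D.M.step.rule s c = some r' ∧ (r'.1, Op.step r'.2) = r := by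
          simpa only [confRule, Option.map_eq_some_iff] using hc
        simp only [colOp, hc, next]
        have hw : ∀ L : List D.M.C, fuels (L.map fun d => (Sum.inl (Letter.conf d) : Sym D)) = 0 := by
          intro L; induction L with
          | nil => rfl
          | cons b L ihL => simpa [fuels] using ihL
        simpa [hw, fuels] using
          pre_mem (w := (r'.1.1 :: r'.1.2).map fun d => .inl (.conf d)) (ih r'.2)
    | z =>
      by_cases hf : D.M.step.final s
      · simpa [colOp, fcolumn, ffinal, hf] using e_mem (D := D) (l := .inl .z :: l) rfl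
      · simp [colOp, fcolumn, ffinal, hf]
    | pad => simpa [colOp, next, fuels] using pre_mem (ih s) (w := [.inl .pad])
    | load t =>
      simpa [colOp, loadRule, next, fuels] using pre_mem (ih s) (w := [.inl (.load t)])
    | fuel =>
      simpa [colOp, fuelRule, head, next, fuels, add_comm] using pre_mem (ih s) (w := [.inl .fuel])
    | colour σ =>
      simp only [colOp, fcolumn, map_add, map_mul, LinearMap.add_apply, Module.End.mul_apply]
      obtain ⟨h1, h2⟩ := proj_mem l
      have h3 : rho0 D (D.fp - D.fxT * D.fyT) (e l) ∈ fuelPart D (fuels l) := by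
        rw [map_sub, LinearMap.sub_apply]
        exact Submodule.sub_mem _ h1 h2
      rw [map_mul, Module.End.mul_apply] at h2
      have hw : fuels ([.inl (.colour σ)] : List (Sym D)) + fuels l
          = fuels (.inl (.colour σ) :: l) := by simp [fuels]
      refine Submodule.add_mem _ (fwrite_mem _ _ ?_) (fwrite_mem _ _ ?_)
      · rw [← hw, rho0_fx]; exact pre_mem h3
      · rw [← hw, rho0_fx]; exact pre_mem h2
    | _ => simp [colOp, fcolumn]

theorem lev_succ_eq : ∀ (n : ℕ) (l : List (Sym D)) (q : D.Op), need l q ≤ n →
    lev (n + 1) l q = lev n l q := by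
  intro n
  induction n using Nat.strong_induction_on with
  | _ n ihn =>
    intro l
    induction l with
    | nil => intro q _; rw [lev_tag _ q (by simp), lev_tag _ q (by simp)]
    | cons a l ih =>
      intro q hq
      rcases a with a | h
      swap
      · rw [lev_tag _ q (by simp), lev_tag _ q (by simp)]
      rw [lev_inl, lev_inl]
      refine colOp_congr l fun ops hops => ?_
      rcases used_cases hops with ⟨r, rfl, hr⟩ | ⟨t, rfl, rfl⟩ | ⟨rfl, rfl, rfl⟩
      · simp only [next]
        exact ih r ((hr l).trans hq)
      · obtain ⟨n', rfl⟩ : ∃ n', n = n' + 1 := ⟨n - 1, by simp [need] at hq; omega⟩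
        simp only [next, below]
        rw [ih .seed (by simp [need])]
        congr 2
        funext l'
        exact ihn n' (Nat.lt_succ_self _) l' _ (by simp [need])
      · simp only [need, fuels] at hq
        obtain ⟨n', rfl⟩ : ∃ n', n = n' + 1 := ⟨n - 1, by omega⟩
        simp only [next, below]
        rw [ih D.stepOp (by simp [need])]
        exact lmap_congr (lev_step_mem _ l _) fun l' hl' =>
          ihn n' (Nat.lt_succ_self _) l' _ (by simp only [need, hl']; omega)

theorem lev_eq {l : List (Sym D)} {q : D.Op} {n : ℕ} (h : need l q ≤ n) :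
    lev n l q = lev (need l q) l q := by
  induction n, h using Nat.le_induction with
  | base => rfl
  | succ n hn ih => rw [lev_succ_eq n l q hn, ih]

/-- The action of an operator. -/
noncomputable def opE (q : D.Op) : EndV D := lmap fun l => lev (need l q) l q

theorem opE_e {q : D.Op} {l : List (Sym D)} {n : ℕ} (h : need l q ≤ n) :
    opE q (e l) = lev n l q := by rw [opE, lmap_e, lev_eq h]

theorem opE_inl (q : D.Op) (a : D.Letter) (l : List (Sym D)) :
    opE q (e (.inl a :: l)) = colOp q a l fun ops => (ops.map opE).prod (e l) := by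
  rw [opE_e le_rfl, lev_inl]
  refine colOp_congr l fun ops hops => ?_
  rcases used_cases hops with ⟨r, rfl, hr⟩ | ⟨t, rfl, rfl⟩ | ⟨rfl, rfl, rfl⟩
  · simp [next, opE_e (hr l)]
  · simp [next, below, need, opE]
  · simp only [next, head, need, fuels, below, List.map_cons, List.map_nil, List.prod_cons,
      List.prod_nil, mul_one, Module.End.mul_apply]
    rw [opE_e (q := D.stepOp) (n := fuels l + 1) (by simp [need]), opE]
    exact lmap_congr (lev_step_mem _ l _) fun l' hl' => by simp only [need, hl']

theorem opE_tag (q : D.Op) {l : List (Sym D)} (hl : ∀ a r, l ≠ .inl a :: r) :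
    opE q (e l) = rho0 D (D.fwrite q .plain) (e l) := by
  rw [opE_e le_rfl, lev_tag _ _ hl]

/-- The generators. -/
noncomputable def gen : D.Gen → EndV D
  | .op q => opE q
  | g => gen0 g

/-- The representation of the free algebra. -/
noncomputable def rho (D : Setup) : D.Free →ₐ[ZMod 2] EndV D := FreeAlgebra.lift (ZMod 2) gen

@[simp] theorem rho_fop (q : D.Op) : rho D (D.fop q) = opE q := by simp [rho, fop, gen]

@[simp] theorem rho_fx (a : D.Letter) : rho D (D.fx a) = pre [.inl a] := by
  simp [rho, fx, gen, gen0, key]

@[simp] theorem rho_fy (a : D.Letter) : rho D (D.fy a) = strip (.inl a) := by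
  simp [rho, fy, gen, gen0, key]

@[simp] theorem rho_fxT : rho D D.fxT = pre [.inr 1] := by simp [rho, fxT, gen, gen0, key]

@[simp] theorem rho_fyT : rho D D.fyT = strip (.inr 1) := by simp [rho, fyT, gen, gen0, key]

@[simp] theorem rho_fg (i : Fin D.k) : rho D (D.fg i) = act D (D.g i) := by
  simp [rho, fg, gen, gen0]

theorem rho_fwrite (q : D.Op) (σ : Colour) : rho D (D.fwrite q σ) = rho0 D (D.fwrite q σ) := by
  cases h : D.colourRule q σ <;> simp [fwrite, h]

theorem rho_fp : rho D D.fp = rho0 D D.fp := by simp [fp]

theorem rho_ffinal (q : D.Op) : rho D (D.ffinal q) = rho0 D (D.ffinal q) := by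
  cases q with
  | copy t => cases t <;> simp [ffinal, fatom]
  | step s => simp only [ffinal]; split_ifs <;> simp
  | acc s => simp only [ffinal]; split_ifs <;> simp
  | _ => simp [ffinal]

theorem rho_fcolumn (q : D.Op) (a : D.Letter) (l : List (Sym D)) :
    rho D (D.fcolumn q a) (e l) = colOp q a l fun ops => (ops.map opE).prod (e l) := by
  have hops : ∀ ops : List D.Op, rho D (ops.map D.fop).prod = (ops.map opE).prod := by
    intro ops
    rw [map_list_prod, List.map_map]
    simp [Function.comp_def]
  cases a with
  | conf c =>
    cases hc : D.confRule q c with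
    | none => simp [colOp, fcolumn, hc]
    | some r =>
      simp only [colOp, fcolumn, hc, map_mul, map_list_prod, List.map_map, Function.comp_def,
        rho_fx, rho_fop, Module.End.mul_apply]
      rw [prod_map_pre (fun d : D.M.C => (Sum.inl (Letter.conf d) : Sym D))]
      simp
  | pad => simp [colOp, fcolumn]
  | load t => simp [colOp, fcolumn, hops]
  | fuel => simp [colOp, fcolumn, hops]
  | z => simp [colOp, fcolumn, rho_ffinal]
  | go => simp only [colOp, fcolumn]; split_ifs <;> simp
  | colour σ => simp [colOp, fcolumn, rho_fwrite, rho_fp]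
  | _ => simp [colOp, fcolumn]

/-! ## The compressing relation -/

theorem opE_pre_inl (q : D.Op) (a : D.Letter) :
    opE q * pre [.inl a] = rho D (D.fcolumn q a) :=
  end_ext fun l => by simp [opE_inl, rho_fcolumn]

theorem opE_pad (q : D.Op) : opE q * pre [.inl .pad] = pre [.inl .pad] * opE q := by
  simp [opE_pre_inl, fcolumn]

theorem opE_load (q : D.Op) (t : Atom D.k) (h : q ≠ .seed) :
    opE q * pre [.inl (.load t)] = pre [.inl (.load t)] * opE q := by
  simp [opE_pre_inl, fcolumn, loadRule, h]

theorem opE_fuel (q : D.Op) (h : q ≠ D.head) :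
    opE q * pre [.inl .fuel] = pre [.inl .fuel] * opE q := by
  simp [opE_pre_inl, fcolumn, fuelRule, h]

theorem opE_head_fuel :
    opE D.head * pre [.inl .fuel] = pre [.inl .fuel] * (opE D.head * opE D.stepOp) := by
  simp [opE_pre_inl, fcolumn, fuelRule]

theorem seed_load (t : Atom D.k) :
    opE .seed * pre [.inl (.load t)] = pre [.inl (.load t)] * (opE (.code t) * opE .seed) := by
  simp [opE_pre_inl, fcolumn, loadRule]

/-- The product of the code operators of a list of atoms. -/
noncomputable def codes (ts : List (Atom D.k)) : EndV D := (ts.map fun t => opE (.code t)).prod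

theorem list_prod_comm {α : Type*} (f : α → EndV D) {u : EndV D} (h : ∀ a, Commute (f a) u) :
    ∀ L : List α, Commute (L.map f).prod u
  | [] => Commute.one_left u
  | a :: L => by simpa using (h a).mul_left (list_prod_comm f h L)

/-- The value of an atom. -/
noncomputable def atomE (t : Atom D.k) : EndV D := rho D (D.fatom t)

theorem opE_copy_conf (t : Atom D.k) (c : D.M.C) :
    opE (.copy t) * pre [.inl (.conf c)] = pre [.inl (.conf c)] * opE (.copy t) := by
  simp [opE_pre_inl, fcolumn, confRule]

theorem opE_code_lb (t : Atom D.k) :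
    opE (.code t) * pre [.inl (.conf D.M.lb)] =
      pre [.inl (.conf D.M.lb), .inl (.conf (D.M.sym t))] * opE (.copy t) := by
  simp [opE_pre_inl, fcolumn, confRule, pre_mul]

theorem opE_z (q : D.Op) : opE q * pre [.inl .z] = pre [.inl .z] * rho D (D.ffinal q) := by
  simp [opE_pre_inl, fcolumn]

/-- A configuration as a word. -/
def word (L : List D.M.C) : List (Sym D) := L.map (fun d => .inl (.conf d)) ++ [.inl .z]

theorem pre_word_cons (c : D.M.C) (L : List D.M.C) :
    pre (word (c :: L)) = pre [.inl (.conf c)] * pre (word L) := by
  simp [word, pre_mul]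

theorem copy_word (t : Atom D.k) : ∀ L : List D.M.C,
    opE (.copy t) * pre (word L) = pre (word L) * atomE t
  | [] => by simpa [word, atomE, ffinal] using opE_z (D := D) (.copy t)
  | c :: L => by
    rw [pre_word_cons, ← mul_assoc, opE_copy_conf, mul_assoc, copy_word t L, ← mul_assoc]

theorem codes_start : ∀ ts : List (Atom D.k),
    codes ts * pre (word (D.M.start [])) = pre (word (D.M.start ts)) * (ts.map atomE).prod
  | [] => by simp [codes]
  | t :: ts => by
    have ih := codes_start ts
    simp only [codes, List.map_cons, List.prod_cons] at ih ⊢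
    rw [mul_assoc, ih, ← mul_assoc, ← mul_assoc]
    congr 1
    have e1 : pre (word (D.M.start ts)) =
        pre [.inl (.conf D.M.lb)] * pre (word (ts.map D.M.sym ++ [D.M.rb])) := by
      rw [← pre_word_cons]; rfl
    rw [e1, ← mul_assoc, opE_code_lb, mul_assoc, copy_word, ← mul_assoc, pre_mul]
    simp [word, Machine.start]

theorem run_word (Tr : Transducer D.M.C) (mk : Tr.State → D.Op)
    (hrule : ∀ s c, D.confRule (mk s) c = (Tr.rule s c).map fun r => (r.1, mk r.2))
    (hfin : ∀ s, D.ffinal (mk s) = if Tr.final s then 1 else 0) :
    ∀ (L : List D.M.C) (s : Tr.State), opE (mk s) * pre (word L) =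
      ((Tr.runFrom s L).bind fun o => if Tr.final o.2 then some o.1 else none).elim 0
        fun o => pre (word o)
  | [], s => by
    have h := opE_z (D := D) (mk s)
    rw [hfin] at h
    by_cases hf : Tr.final s <;> simp [word, Transducer.runFrom, h, hf]
  | c :: L, s => by
    rw [pre_word_cons, ← mul_assoc, opE_pre_inl]
    cases hc : Tr.rule s c with
    | none => simp [fcolumn, hrule, hc, Transducer.runFrom]
    | some r =>
      have hcol : rho D (D.fcolumn (mk s) (.conf c)) =
          pre ((r.1.1 :: r.1.2).map fun d => .inl (.conf d)) * opE (mk r.2) := by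
        simp only [fcolumn, hrule, hc, Option.map_some, map_mul, map_list_prod, List.map_map,
          Function.comp_def, rho_fx, rho_fop]
        rw [prod_map_pre (fun d : D.M.C => (Sum.inl (Letter.conf d) : Sym D))]
      rw [hcol, mul_assoc, run_word Tr mk hrule hfin L r.2]
      cases hr : Tr.runFrom r.2 L with
      | none => simp [Transducer.runFrom, hc, hr]
      | some o =>
        by_cases hf : Tr.final o.2 <;>
          simp [Transducer.runFrom, hc, hr, hf, word, pre_mul, List.append_assoc]

theorem iter_word (L : List D.M.C) : ∀ n : ℕ,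
    opE D.stepOp ^ n * pre (word L) = (D.M.step.iter n L).elim 0 fun o => pre (word o)
  | 0 => by simp [Transducer.iter]
  | n + 1 => by
    rw [pow_succ', mul_assoc, iter_word L n]
    cases h : D.M.step.iter n L with
    | none => simp [Transducer.iter, h]
    | some o =>
      simp only [Option.elim, Transducer.iter, h, Option.bind_some, Transducer.eval]
      exact run_word D.M.step .step (fun s c => rfl) (fun s => rfl) o _

theorem prod_gens (w : List (Fin D.k)) :
    (w.map fun i => atomE (.gen i)).prod * pre [.inl .b1] =
        pre [.inl .b1] * act D (w.map D.g).prod ∧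
      (w.map fun i => atomE (.gen i)).prod * pre [.inl .b0] = pre [.inl .b0] := by
  induction w with
  | nil => simp
  | cons i w ih =>
    obtain ⟨h1, h0⟩ := ih
    constructor
    · simp only [List.map_cons, List.prod_cons, map_mul]
      rw [mul_assoc, h1]
      simp [atomE, fatom, add_mul, ← mul_assoc, mul_assoc (pre _) (strip _), strip_mul_pre,
        mul_assoc (pre _ * act D _) (strip _)]
    · simp only [List.map_cons, List.prod_cons]
      rw [mul_assoc, h0]
      simp [atomE, fatom, add_mul, mul_assoc, strip_mul_pre]

theorem atoms_valid {ts : List (Atom D.k)} (h : ValidCode D.g ts) : (ts.map atomE).prod = 0 := by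
  rcases h with ⟨w, rfl, hw⟩ | ⟨w, rfl, hw⟩
  · obtain ⟨h1, h0⟩ := prod_gens (D := D) w
    rw [hw, map_one, mul_one] at h1
    simp only [List.map_cons, List.map_append, List.map_map, List.map_nil, List.prod_cons,
      List.prod_append, List.prod_nil, mul_one, Function.comp_def]
    have hc : atomE (D := D) .col = pre [.inl .b1] - pre [.inl .b0] := by simp [atomE, fatom]
    have hr : atomE (D := D) .row = strip (.inl .b0) + strip (.inl .b1) := by simp [atomE, fatom]
    have hsub : ∀ f g g' : EndV D, f * (g - g') = f * g - f * g' := fun f g g' => mul_sub f g g'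
    rw [hc, hr, hsub, h1, h0, hsub]
    simp [add_mul, strip_mul_pre]
    exact LinearMap.ext fun v => sub_self v
  · obtain ⟨h1, -⟩ := prod_gens (D := D) w
    simp only [List.map_cons, List.map_append, List.map_map, List.map_nil, List.prod_cons,
      List.prod_append, List.prod_nil, mul_one, Function.comp_def]
    have hx : atomE (D := D) .xT = pre [.inl .b1] * pre [.inr 1] := by simp [atomE, fatom]
    have hy : atomE (D := D) .yT = strip (.inr 1) * strip (.inl .b1) := by simp [atomE, fatom]
    rw [hx, hy, ← mul_assoc _ (pre [.inl .b1]), h1, mul_assoc (pre _), act_mul_pre_inr, mul_one,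
      mul_assoc, ← mul_assoc (strip (.inl .b1)), strip_mul_pre, if_pos rfl, one_mul, strip_mul_pre,
      if_neg (by simpa using hw)]

theorem go_zero (n : ℕ) (ts : List (Atom D.k)) :
    opE D.head * opE D.stepOp ^ n * codes ts * opE .seed * pre [.inl .go] = 0 := by
  have hs : opE .seed * pre [.inl .go] = pre (word (D.M.start [])) := by
    simp [opE_pre_inl, fcolumn, word, Machine.start, pre_mul]
  rw [mul_assoc, hs, mul_assoc, codes_start, ← mul_assoc, mul_assoc (opE D.head), iter_word]
  cases hit : D.M.step.iter n (D.M.start ts) with
  | none => simp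
  | some o =>
    simp only [Option.elim]
    rw [run_word D.M.acc .acc (fun s c => rfl) (fun s => rfl)]
    cases hev : D.M.acc.eval o with
    | none =>
      rw [Transducer.eval] at hev
      rw [hev]
      simp
    | some o' =>
      have hacc : D.M.Accepts ts := ⟨n, by rw [hit, Option.bind_some, hev]; rfl⟩
      rw [atoms_valid ((D.spec ts).1 hacc), mul_zero]

/-- Vectors with a coloured tag in front. -/
def Tagged (D : Setup) (σ : Colour) (v : V D) : Prop :=
  ∃ u, v = pre [.inl (.colour σ), .inr 1] u

theorem opE_colour_tagged (q : D.Op) (σ : Colour) :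
    opE q * pre [.inl (.colour σ), .inr 1] =
      rho D (D.fwrite q σ) * pre [.inl (.colour σ), .inr 1] :=
  end_ext fun l => by
    simp [opE_inl, colOp, fcolumn, rho_fwrite, rho0_fp_e, strip]

theorem tagged_fwrite {q : D.Op} {σ τ : Colour} (h : D.colourRule q σ = some τ) (v : V D) :
    Tagged D τ (rho D (D.fwrite q σ) v) :=
  ⟨pre [.inl (.tok q)] v, by simp [fwrite, h, pre_pre, pre_mul]⟩

theorem tagged_op {q : D.Op} {σ τ : Colour} (h : D.colourRule q σ = some τ) {v : V D}
    (hv : Tagged D σ v) : Tagged D τ (opE q v) := by
  obtain ⟨u, rfl⟩ := hv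
  rw [← Module.End.mul_apply, opE_colour_tagged, Module.End.mul_apply]
  exact tagged_fwrite h _

theorem tagged_codes : ∀ (ts : List (Atom D.k)) {v : V D},
    Tagged D .codes v → Tagged D .codes (codes ts v)
  | [], v, hv => by simpa [codes] using hv
  | t :: ts, v, hv => by
    have := tagged_codes ts hv
    simp only [codes, List.map_cons, List.prod_cons, Module.End.mul_apply] at this ⊢
    exact tagged_op (by simp [colourRule]) this

theorem tagged_steps : ∀ (n : ℕ) {v : V D}, Tagged D .codes v →
    ∃ σ, σ ≠ .plain ∧ Tagged D σ ((opE D.stepOp ^ n) v)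
  | 0, v, hv => ⟨.codes, by simp, by simpa using hv⟩
  | n + 1, v, hv => by
    obtain ⟨σ, hσ, h⟩ := tagged_steps n hv
    rw [pow_succ', Module.End.mul_apply]
    exact ⟨.steps, by simp, tagged_op (by simp [colourRule, head, hσ]) h⟩

theorem head_tagged {σ : Colour} (hσ : σ ≠ .plain) {v : V D} (hv : Tagged D σ v) :
    opE D.head v = 0 := by
  obtain ⟨u, rfl⟩ := hv
  rw [← Module.End.mul_apply, opE_colour_tagged]
  simp [fwrite, colourRule, hσ]

theorem tagged_zero (n : ℕ) (ts : List (Atom D.k)) {v : V D} (hv : Tagged D .codes v) :
    opE D.head ((opE D.stepOp ^ n) (codes ts v)) = 0 := by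
  obtain ⟨σ, hσ, h⟩ := tagged_steps n (tagged_codes ts hv)
  exact head_tagged hσ h

theorem compress_e : ∀ (l : List (Sym D)) (n : ℕ) (ts : List (Atom D.k)),
    opE D.head ((opE D.stepOp ^ n) (codes ts (opE .seed (e l)))) = 0 := by
  intro l
  induction l with
  | nil =>
    intro n ts
    rw [opE_tag _ (by simp)]
    exact tagged_zero n ts (by rw [← rho_fwrite]; exact tagged_fwrite (by simp [colourRule]) _)
  | cons a l ih =>
    intro n ts
    rcases a with a | h
    swap
    · rw [opE_tag _ (by simp)]
      exact tagged_zero n ts (by rw [← rho_fwrite]; exact tagged_fwrite (by simp [colourRule]) _)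
    rw [show e (.inl a :: l) = pre [.inl a] (e l) by simp]
    have hpass : ∀ {b : Sym D}, (∀ t, Commute (opE (Op.code t)) (pre [b])) →
        Commute (opE D.stepOp) (pre [b]) → ∀ v, (opE D.stepOp ^ n) (codes ts (pre [b] v))
          = pre [b] ((opE D.stepOp ^ n) (codes ts v)) := by
      intro b h1 h2 v
      have := ((h2.pow_left n).mul_left (list_prod_comm _ h1 ts)).eq
      exact congrArg (fun f : EndV D => f v) this
    cases a with
    | conf c =>
      rw [← Module.End.mul_apply (opE Op.seed), opE_pre_inl]
      simp [fcolumn, confRule]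
    | z =>
      rw [← Module.End.mul_apply (opE Op.seed), opE_z]
      simp [ffinal]
    | go =>
      have := congrArg (fun f : EndV D => f (e l)) (go_zero n ts)
      simpa using this
    | pad =>
      rw [← Module.End.mul_apply (opE Op.seed), opE_pad, Module.End.mul_apply,
        hpass (fun t => opE_pad _) (opE_pad _), ← Module.End.mul_apply, opE_pad,
        Module.End.mul_apply, ih, map_zero]
    | load t =>
      rw [← Module.End.mul_apply (opE Op.seed), seed_load, Module.End.mul_apply,
        hpass (fun _ => opE_load _ t (by simp)) (opE_load _ t (by simp)), ← Module.End.mul_apply (opE D.head),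
        opE_load _ t (by simp [head]), Module.End.mul_apply]
      have hts : codes ts ((opE (.code t) * opE .seed : EndV D) (e l)) =
          codes (ts ++ [t]) (opE .seed (e l)) := by simp [codes]
      rw [hts, ih, map_zero]
    | fuel =>
      rw [← Module.End.mul_apply (opE Op.seed), opE_fuel _ (by simp [head]), Module.End.mul_apply,
        hpass (fun _ => opE_fuel _ (by simp [head])) (opE_fuel _ (by simp [head])),
        ← Module.End.mul_apply (opE D.head), opE_head_fuel, Module.End.mul_apply,
        Module.End.mul_apply, ← Module.End.mul_apply (opE D.stepOp), ← pow_succ', ih, map_zero]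
    | colour σ =>
      refine tagged_zero n ts ?_
      rw [← Module.End.mul_apply (opE Op.seed), opE_pre_inl]
      simp only [fcolumn, map_add, map_mul, fwrite,
        show ∀ σ', D.colourRule .seed σ' = some .codes from fun σ' => by simp [colourRule]]
      simp only [mul_assoc, ← mul_add, Module.End.mul_apply]
      simp only [rho_fx, rho_fxT]
      exact ⟨_, pre_pre [_] [_] _⟩
    | tok r => rw [← Module.End.mul_apply (opE Op.seed), opE_pre_inl]; simp [fcolumn]
    | b0 => rw [← Module.End.mul_apply (opE Op.seed), opE_pre_inl]; simp [fcolumn]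
    | b1 => rw [← Module.End.mul_apply (opE Op.seed), opE_pre_inl]; simp [fcolumn]

/-- The defining relations hold. -/
theorem rho_rel {a b : D.Free} (h : D.Rel a b) : rho D a = rho D b := by
  cases h with
  | orth l m =>
    have : rho D (FreeAlgebra.ι (ZMod 2) (Gen.y l)) * rho D (FreeAlgebra.ι (ZMod 2) (Gen.x m)) =
        strip (key l) * pre [key m] := by simp [rho, gen, gen0]
    rw [map_mul, this, strip_mul_pre]
    by_cases hlm : l = m
    · simp [hlm]
    · rw [if_neg fun h => hlm (key_injective h).symm, if_neg hlm, map_zero]
  | gx i a => simpa using act_mul_pre_inl (D.g i) a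
  | gy i a => simpa using strip_mul_act (D.g i) a
  | column q a => simpa using opE_pre_inl q a
  | tag q =>
    rw [map_mul, map_mul, rho_fop, rho_fp, rho_fwrite]
    refine end_ext fun l => ?_
    simp only [Module.End.mul_apply, rho0_fp_e]
    rcases l with _ | ⟨b | h, r⟩
    · exact opE_tag q (by simp)
    · simp
    · exact opE_tag q (by simp)
  | compress =>
    rw [map_mul, map_zero, rho_fop, rho_fop]
    exact end_ext fun l => by simpa [codes] using compress_e l 0 []

end Repr

variable (D : Setup)

/-- The representation of the algebra on lists over `D.Letter ⊕ D.K`. -/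
noncomputable def repr : D.Alg →ₐ[ZMod 2] Repr.EndV D :=
  RingQuot.liftAlgHom (ZMod 2) ⟨Repr.rho D, fun _ _ h => Repr.rho_rel h⟩

theorem repr_quot (a : D.Free) : D.repr (D.quot a) = Repr.rho D a :=
  RingQuot.liftAlgHom_mkAlgHom_apply (ZMod 2) _ _ a

instance : Nontrivial D.Alg :=
  haveI : Nontrivial (Repr.EndV D) := ⟨⟨0, 1, fun h => by
    have := congrArg (fun f : Repr.EndV D => f (Repr.e []) []) h
    simp [Repr.e] at this⟩⟩
  D.repr.toRingHom.domain_nontrivial

end Vale.Agent.P193.Setup
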