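import Vale.Agent.P193.Pure.Defs
import Vale.Agent.P193.Alg.Compress
import Vale.Agent.P193.Alg.Dense
import Vale.Agent.P193.Alg.Detect
import Vale.Agent.P193.Alg.Repr

/-!
# The pure system of the algebra of a setup
-/

namespace Vale.Agent.P193.Setup

variable (D : Setup)

/-- The isometry of a word, as a monoid hom. -/
noncomputable def wordHom : FreeMonoid D.Lam →* D.Alg := FreeMonoid.lift D.derived.lx

theorem wordHom_ofList (l : List D.Lam) : D.wordHom (FreeMonoid.ofList l) = D.derived.X l := by
  simp only [wordHom, FreeMonoid.lift_apply, Derived.X]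
  rfl

theorem range_wordHom : Set.range D.wordHom = Set.range D.derived.X := by
  ext a
  constructor
  · rintro ⟨w, rfl⟩
    exact ⟨FreeMonoid.toList w, (D.wordHom_ofList _).symm⟩
  · rintro ⟨w, rfl⟩
    exact ⟨_, D.wordHom_ofList w⟩

/-- The algebra of a setup is a pure system. -/
noncomputable def pureSystem : PureSystem D.Alg where
  W := FreeMonoid D.Lam
  x := D.wordHom
  y w := D.derived.Y (FreeMonoid.toList w)
  left_inv w := by
    have h := D.derived.Y_mul_X_self (FreeMonoid.toList w)
    rwa [← wordHom_ofList] at h
  separate S n := by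
    classical
    obtain ⟨f, hf⟩ := D.derived.exists_separate (S.image fun w => FreeMonoid.toList w) n
    refine ⟨fun i => FreeMonoid.ofList (f i), fun w hw w' hw' i j hne => ?_⟩
    have h := hf _ (Finset.mem_image_of_mem _ hw) _ (Finset.mem_image_of_mem _ hw') i j
      (fun e => hne (by simpa using e))
    rw [← wordHom_ofList] at h
    exact h
  detect a ha := by
    obtain ⟨w, h1, h2⟩ := D.derived.exists_pure_ne_zero ha
    rw [← wordHom_ofList] at h1 h2
    rw [Derived.Pure, ← range_wordHom] at h1
    exact ⟨_, h1, h2⟩
  dense a w := by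
    obtain ⟨v, hv⟩ := D.derived.exists_pure a (FreeMonoid.toList w)
    rw [← wordHom_ofList, ← range_wordHom] at hv
    exact ⟨FreeMonoid.ofList v, hv⟩

end Vale.Agent.P193.Setup
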