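import Vale.Agent.P193.Alg.Basic

/-!
# The infinite alphabet and normal words

Everything here assumes the consequences of the compressing relation (`Rel₀`): the group acts, its tags are
orthogonal, and the compressed words vanish.
-/

namespace Vale.Agent.P193.Setup

open scoped Classical

variable (D : Setup)

/-- The consequences of the compressing relation that the normal form uses. -/
structure Derived where
  kk : D.K →* D.Alg
  kk_g : ∀ i, kk (D.g i) = D.gg i
  kk_orth : ∀ k, D.yT * kk k * D.xT = if k = 1 then 1 else 0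
  pattern : ∀ (n : ℕ) (ts : List (Atom D.k)),
    D.op D.head * D.op D.stepOp ^ n * (ts.map fun t => D.op (.code t)).prod * D.op .seed = 0

/-- The alphabet: finite letters and one tag for every group element. -/
abbrev Lam := D.Letter ⊕ D.K

namespace Derived

variable {D} (R : D.Derived)

/-- Isometry of a letter. -/
noncomputable def lx : D.Lam → D.Alg
  | .inl a => D.x a
  | .inr k => R.kk k * D.xT

/-- Adjoint of a letter. -/
noncomputable def ly : D.Lam → D.Alg
  | .inl a => D.y a
  | .inr k => D.yT * R.kk k⁻¹

/-- Isometry of a word. -/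
noncomputable def X (w : List D.Lam) : D.Alg := (w.map R.lx).prod

/-- Adjoint of a word. -/
noncomputable def Y (w : List D.Lam) : D.Alg := (w.reverse.map R.ly).prod

theorem kk_closure {P : D.K → Prop} (h1 : P 1) (hm : ∀ i k, P k → P (D.g i * k)) (k : D.K) : P k := by
  induction k using Submonoid.induction_of_closure_eq_top_left D.closure_range with
  | one => exact h1
  | mul_left x hx y hy => obtain ⟨i, rfl⟩ := hx; exact hm i y hy

theorem kk_mul_x (k : D.K) (a : D.Letter) : R.kk k * D.x a = D.x a * R.kk k := by
  induction k using kk_closure with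
  | h1 => simp
  | hm i k h => rw [map_mul, R.kk_g, mul_assoc, h, ← mul_assoc, gg_mul_x, mul_assoc]

theorem y_mul_kk (k : D.K) (a : D.Letter) : D.y a * R.kk k = R.kk k * D.y a := by
  induction k using kk_closure with
  | h1 => simp
  | hm i k h => rw [map_mul, R.kk_g, ← mul_assoc, y_mul_gg, mul_assoc, h, mul_assoc]

theorem kk_mul_p (k : D.K) : R.kk k * D.p = D.p * R.kk k := by
  induction k using kk_closure with
  | h1 => simp
  | hm i k h => rw [map_mul, R.kk_g, mul_assoc, h, ← mul_assoc, gg_mul_p, mul_assoc]

theorem kk_mul_kk (k l : D.K) : R.kk k * R.kk l = R.kk (k * l) := (map_mul _ _ _).symm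

theorem ly_mul_lx (l m : D.Lam) : R.ly l * R.lx m = if l = m then 1 else 0 := by
  rcases l with a | k <;> rcases m with b | j
  · simp [ly, lx, y_mul_x]
  · simp only [ly, lx]
    rw [← mul_assoc, R.y_mul_kk, mul_assoc, y_mul_xT, mul_zero]
    simp
  · simp only [ly, lx]
    rw [mul_assoc, R.kk_mul_x, ← mul_assoc, yT_mul_x, zero_mul]
    simp
  · simp only [ly, lx]
    rw [mul_assoc, ← mul_assoc (R.kk k⁻¹), kk_mul_kk, ← mul_assoc, R.kk_orth]
    simp [inv_mul_eq_one]

theorem ly_mul_lx_self (l : D.Lam) : R.ly l * R.lx l = 1 := by simp [ly_mul_lx]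

theorem p_mul_tag (k : D.K) : D.p * R.lx (.inr k) = R.lx (.inr k) := by
  simp only [lx]
  rw [← mul_assoc, ← R.kk_mul_p, mul_assoc, p_mul_xT]

theorem tag_mul_p (k : D.K) : R.ly (.inr k) * D.p = R.ly (.inr k) := by
  simp only [ly]
  rw [mul_assoc, R.kk_mul_p, ← mul_assoc, yT_mul_p]

theorem X_nil : R.X [] = 1 := rfl

theorem X_cons (l : D.Lam) (w : List D.Lam) : R.X (l :: w) = R.lx l * R.X w := rfl

theorem X_append (v w : List D.Lam) : R.X (v ++ w) = R.X v * R.X w := by simp [X]

theorem X_single (l : D.Lam) : R.X [l] = R.lx l := by simp [X]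

theorem Y_nil : R.Y [] = 1 := rfl

theorem Y_cons (l : D.Lam) (w : List D.Lam) : R.Y (l :: w) = R.Y w * R.ly l := by simp [Y]

theorem Y_append (v w : List D.Lam) : R.Y (v ++ w) = R.Y w * R.Y v := by simp [Y]

theorem Y_mul_X_self (w : List D.Lam) : R.Y w * R.X w = 1 := by
  induction w with
  | nil => simp [X_nil, Y_nil]
  | cons l w ih => rw [X_cons, Y_cons, mul_assoc, ← mul_assoc (R.ly l), ly_mul_lx_self, one_mul, ih]

theorem Y_mul_X_eq_zero {v w : List D.Lam} (h1 : ¬ v <+: w) (h2 : ¬ w <+: v) :
    R.Y v * R.X w = 0 := by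
  induction v generalizing w with
  | nil => exact absurd (List.nil_prefix) h1
  | cons l v ih =>
    rcases w with _ | ⟨m, w⟩
    · exact absurd (List.nil_prefix) h2
    rw [X_cons, Y_cons, mul_assoc, ← mul_assoc (R.ly l), ly_mul_lx]
    split_ifs with hlm
    · subst hlm
      rw [one_mul]
      exact ih (fun h => h1 (List.cons_prefix_cons.2 ⟨rfl, h⟩))
        (fun h => h2 (List.cons_prefix_cons.2 ⟨rfl, h⟩))
    · rw [zero_mul, mul_zero]

/-! ## Normal words -/

/-- A normal word: a group element followed by operators, each with a group element. -/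
abbrev NWord (D : Setup) := D.K × List (D.Op × D.K)

/-- Product of the blocks of a normal word. -/
noncomputable def blocks (l : List (D.Op × D.K)) : D.Alg :=
  (l.map fun b => D.op b.1 * R.kk b.2).prod

/-- Value of a normal word. -/
noncomputable def val (b : NWord D) : D.Alg := R.kk b.1 * R.blocks b.2

theorem blocks_cons (q : D.Op) (k : D.K) (l : List (D.Op × D.K)) :
    R.blocks ((q, k) :: l) = D.op q * R.val (k, l) := by
  simp [blocks, val, mul_assoc]

theorem val_nil (k : D.K) : R.val (k, []) = R.kk k := by simp [val, blocks]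

theorem val_cons (k0 : D.K) (q : D.Op) (k : D.K) (l : List (D.Op × D.K)) :
    R.val (k0, (q, k) :: l) = R.kk k0 * (D.op q * R.val (k, l)) := by
  rw [val, blocks_cons]

theorem kk_mul_val (j : D.K) (b : NWord D) : R.kk j * R.val b = R.val (j * b.1, b.2) := by
  rw [val, val, ← mul_assoc, kk_mul_kk]

theorem op_mul_val (q : D.Op) (b : NWord D) : D.op q * R.val b = R.val (1, (q, b.1) :: b.2) := by
  rw [val_cons, map_one, one_mul]

theorem op_eq_val (q : D.Op) : D.op q = R.val (1, [(q, 1)]) := by
  rw [val_cons, val_nil, map_one, one_mul, mul_one]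

/-- Colour of a normal word at its left end; `none` means that it is annihilated. -/
noncomputable def colourOf : List (D.Op × D.K) → Option Colour
  | [] => some .plain
  | (q, k) :: l =>
    (colourOf l).bind fun σ => D.colourRule q (if k = 1 then σ else .plain)

/-- What a normal word writes in front of a tag. -/
noncomputable def pre : D.K → List (D.Op × D.K) → List D.Lam
  | _, [] => []
  | k0, (q, k) :: l =>
    .inl (.colour ((colourOf ((q, k) :: l)).getD .plain)) :: .inr k0 :: .inl (.tok q) :: pre k l

/-- The last group element of a normal word. -/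
def last : D.K → List (D.Op × D.K) → D.K
  | k0, [] => k0
  | _, (_, k) :: l => last k l


theorem colourOf_cons (q : D.Op) (k : D.K) (l : List (D.Op × D.K)) :
    colourOf ((q, k) :: l) =
      (colourOf l).bind fun σ => D.colourRule q (if k = 1 then σ else .plain) := rfl

theorem pre_cons {k0 k : D.K} {q : D.Op} {l : List (D.Op × D.K)} {σ : Colour}
    (h : colourOf ((q, k) :: l) = some σ) :
    pre k0 ((q, k) :: l) = .inl (.colour σ) :: .inr k0 :: .inl (.tok q) :: pre k l := by
  simp [pre, h]

theorem colourRule_eq_codes {q : D.Op} {σ : Colour} (h : D.colourRule q σ = some .codes) :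
    q = .seed ∨ (σ = .codes ∧ ∃ t, q = .code t) := by
  cases q with
  | code t => cases σ <;> simp_all [colourRule]
  | seed => exact Or.inl rfl
  | copy t => simp [colourRule] at h
  | step st => simp only [colourRule] at h; split_ifs at h <;> simp_all
  | acc st => simp only [colourRule] at h; split_ifs at h <;> simp_all

theorem colourRule_eq_steps {q : D.Op} {σ : Colour} (h : D.colourRule q σ = some .steps) :
    q = D.stepOp ∧ σ ≠ .plain := by
  cases q with
  | code t => cases σ <;> simp_all [colourRule]
  | seed => simp [colourRule] at h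
  | copy t => simp [colourRule] at h
  | step st => simp only [colourRule] at h; split_ifs at h <;> simp_all
  | acc st => simp only [colourRule] at h; split_ifs at h <;> simp_all

theorem colourRule_eq_none {q : D.Op} {σ : Colour} (h : D.colourRule q σ = none) :
    q = D.head ∧ σ ≠ .plain := by
  cases q with
  | code t => cases σ <;> simp_all [colourRule]
  | seed => simp [colourRule] at h
  | copy t => simp [colourRule] at h
  | step st => simp only [colourRule] at h; split_ifs at h <;> simp_all
  | acc st => simp only [colourRule] at h; split_ifs at h <;> simp_all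

/-- A word of colour `codes` starts with code operators and the seed; of colour `steps`, with step
operators before them. -/
theorem blocks_of_coloured (l : List (D.Op × D.K)) :
    (colourOf l = some .codes →
      ∃ (ts : List (Atom D.k)) (r : D.Alg), R.blocks l = (ts.map fun t => D.op (.code t)).prod * D.op .seed * r) ∧
    (colourOf l = some .steps →
      ∃ (n : ℕ) (ts : List (Atom D.k)) (r : D.Alg), R.blocks l =
        D.op D.stepOp ^ n * (ts.map fun t => D.op (.code t)).prod * D.op .seed * r) := by
  induction l with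
  | nil => simp [colourOf]
  | cons b l ih =>
    obtain ⟨q, k⟩ := b
    refine ⟨fun h => ?_, fun h => ?_⟩
    · rw [colourOf_cons, Option.bind_eq_some_iff] at h
      obtain ⟨σ, hσ, hr⟩ := h
      rcases colourRule_eq_codes hr with rfl | ⟨hc, t, rfl⟩
      · exact ⟨[], R.val (k, l), by simp [blocks_cons]⟩
      · obtain ⟨hk, rfl⟩ : k = 1 ∧ σ = .codes := by
          split_ifs at hc with hk <;> first | exact ⟨hk, hc⟩ | simp at hc
        obtain ⟨ts, r, e⟩ := ih.1 hσ
        exact ⟨t :: ts, r, by simp [blocks_cons, val, hk, e, mul_assoc]⟩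
    · rw [colourOf_cons, Option.bind_eq_some_iff] at h
      obtain ⟨σ, hσ, hr⟩ := h
      obtain ⟨rfl, hc⟩ := colourRule_eq_steps hr
      obtain ⟨hk, hc'⟩ : k = 1 ∧ σ ≠ .plain := by
        split_ifs at hc with hk <;> first | exact ⟨hk, hc⟩ | simp at hc
      cases σ with
      | plain => exact absurd rfl hc'
      | codes =>
        obtain ⟨ts, r, e⟩ := ih.1 hσ
        exact ⟨1, ts, r, by simp [blocks_cons, val, hk, e, mul_assoc]⟩
      | steps =>
        obtain ⟨n, ts, r, e⟩ := ih.2 hσ
        exact ⟨n + 1, ts, r, by simp [blocks_cons, val, hk, e, pow_succ', mul_assoc]⟩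

theorem val_eq_zero {b : NWord D} (h : colourOf b.2 = none) : R.val b = 0 := by
  obtain ⟨k0, l⟩ := b
  induction l generalizing k0 with
  | nil => simp [colourOf] at h
  | cons b l ih =>
    obtain ⟨q, k⟩ := b
    rw [val_cons]
    cases hσ : colourOf l with
    | none => rw [ih k hσ, mul_zero, mul_zero]
    | some σ =>
      rw [colourOf_cons, hσ, Option.bind_some] at h
      obtain ⟨rfl, hc⟩ := colourRule_eq_none h
      obtain ⟨hk, hc'⟩ : k = 1 ∧ σ ≠ .plain := by
        split_ifs at hc with hk <;> first | exact ⟨hk, hc⟩ | simp at hc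
      have hz : D.op D.head * R.blocks l = 0 := by
        cases σ with
        | plain => exact absurd rfl hc'
        | codes =>
          obtain ⟨ts, r, e⟩ := (R.blocks_of_coloured l).1 hσ
          have := R.pattern 0 ts
          rw [pow_zero, mul_one] at this
          rw [e, ← mul_assoc, ← mul_assoc, this, zero_mul]
        | steps =>
          obtain ⟨n, ts, r, e⟩ := (R.blocks_of_coloured l).2 hσ
          rw [e, ← mul_assoc, ← mul_assoc, ← mul_assoc, R.pattern n ts, zero_mul]
      rw [val, hk, map_one, one_mul, hz, mul_zero]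

theorem colour_lx (σ : Colour) : R.lx (.inl (.colour σ)) = D.x (.colour σ) := rfl

theorem write_eq (q : D.Op) {σ τ : Colour} (h : D.colourRule q σ = some τ) :
    D.write q σ = R.X [.inl (.colour τ), .inr 1, .inl (.tok q)] := by
  rw [write_some h]
  simp [X, lx, mul_assoc]

/-- An operator reading a coloured tag. -/
theorem op_mul_colour_tag (q : D.Op) (σ : Colour) (k : D.K) :
    D.op q * (D.x (.colour σ) * R.lx (.inr k)) =
      D.write q (if k = 1 then σ else .plain) * (D.x (.colour σ) * R.lx (.inr k)) := by
  rw [← mul_assoc, op_mul_colour]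
  have hT : D.xT * D.yT * R.lx (.inr k) = if k = 1 then D.xT else 0 := by
    simp only [lx]
    rw [mul_assoc, ← mul_assoc D.yT, R.kk_orth]
    split_ifs <;> simp
  rw [add_mul, mul_assoc _ (D.p - _), mul_assoc _ (D.xT * D.yT), sub_mul, p_mul_tag, hT]
  split_ifs with h
  · subst h
    simp [lx, mul_assoc]
  · simp [mul_assoc]

theorem last_cons (k0 k : D.K) (q : D.Op) (l : List (D.Op × D.K)) :
    last k0 ((q, k) :: l) = last k l := rfl

/-- A normal word in front of a tag. -/
theorem val_mul_p {b : NWord D} {σ : Colour} (h : colourOf b.2 = some σ) :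
    R.val b * D.p = R.X (pre b.1 b.2) * R.kk (last b.1 b.2) * D.p := by
  obtain ⟨k0, l⟩ := b
  induction l generalizing k0 σ with
  | nil => simp [val_nil, pre, last, X_nil]
  | cons b l ih =>
    obtain ⟨q, k⟩ := b
    simp only at h ⊢
    rw [pre_cons h, last_cons, val_cons, mul_assoc, mul_assoc]
    rw [colourOf_cons, Option.bind_eq_some_iff] at h
    obtain ⟨τ, hτ, hr⟩ := h
    have e := ih (σ := τ) k hτ
    simp only at e
    rw [e]
    rcases l with _ | ⟨⟨q', k'⟩, l'⟩
    · simp only [colourOf, Option.some.injEq] at hτ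
      subst hτ
      rw [ite_self] at hr
      simp only [pre, last, X_nil, one_mul]
      rw [R.kk_mul_p, ← mul_assoc (D.op q), op_mul_p, R.write_eq q hr]
      simp only [mul_assoc, ← R.kk_mul_p]
      simp only [← mul_assoc]
      congr 2
      simp only [X_cons, X_nil, lx, map_one, one_mul, mul_one, ← mul_assoc, R.kk_mul_x]
    · rw [pre_cons hτ, X_cons, X_cons, colour_lx, ← mul_assoc (D.x _) (R.lx _),
        mul_assoc (D.x _ * R.lx _) _ (R.kk _), mul_assoc (D.x _ * R.lx _) _ D.p,
        ← mul_assoc (D.op q) (D.x _ * R.lx _), op_mul_colour_tag, R.write_eq q hr]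
      simp only [X_cons, X_nil, lx, map_one, one_mul, mul_one, ← mul_assoc, R.kk_mul_x]

theorem val_mul_tag {b : NWord D} {σ : Colour} (h : colourOf b.2 = some σ) (j : D.K) :
    R.val b * R.lx (.inr j) = R.X (pre b.1 b.2 ++ [.inr (last b.1 b.2 * j)]) := by
  rw [← R.p_mul_tag, ← mul_assoc, R.val_mul_p h, mul_assoc, mul_assoc, R.p_mul_tag, X_append,
    X_single]
  simp only [lx]
  rw [← mul_assoc (R.kk _), kk_mul_kk]

theorem pad_not_mem_pre (k0 : D.K) (l : List (D.Op × D.K)) :
    (Sum.inl Letter.pad : D.Lam) ∉ pre k0 l := by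
  induction l generalizing k0 with
  | nil => simp [pre]
  | cons b l ih => simp [pre, ih]

theorem pre_injective {k0 k0' j : D.K} {l l' : List (D.Op × D.K)}
    (h : pre k0 l ++ [.inr (last k0 l * j)] = pre k0' l' ++ [(.inr (last k0' l' * j) : D.Lam)]) :
    k0 = k0' ∧ l = l' := by
  induction l generalizing k0 k0' l' with
  | nil =>
    rcases l' with _ | ⟨b', l'⟩
    · simpa [pre, last] using h
    · simp [pre] at h
  | cons b l ih =>
    rcases l' with _ | ⟨b', l'⟩
    · simp [pre] at h
    · simp only [pre, last, List.cons_append, List.cons.injEq, Sum.inr.injEq, Sum.inl.injEq,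
        Letter.tok.injEq] at h
      obtain ⟨-, h2, h3, h4⟩ := h
      obtain ⟨h5, h6⟩ := ih h4
      exact ⟨h2, by rw [Prod.ext h3 h5, h6]⟩

end Derived

end Vale.Agent.P193.Setup
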